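import Mathlib.Algebra.Ring.IsFormallyReal
import Mathlib.Analysis.Matrix.Order
import Mathlib.Analysis.SpecialFunctions.Complex.CircleAddChar
import Mathlib.Data.Int.Star
import Mathlib.Data.Real.Sign
import Mathlib.LinearAlgebra.CrossProduct
import Mathlib.LinearAlgebra.Matrix.Swap
import Mathlib.Order.CompletePartialOrder
import Mathlib.RingTheory.Etale.Weakly
import Mathlib.RingTheory.Finiteness.ModuleFinitePresentation
import Mathlib.RingTheory.Flat.TorsionFree
import Mathlib.RingTheory.SimpleRing.Principal
import Mathlib.RingTheory.TotallySplit
import Mathlib.Tactic

/-! The part of Mathlib that the development of this folder uses. -/
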