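import Vale.Agent.P372.MathlibUsed

open Matrix Filter Topology
open scoped ComplexOrder

namespace Vale.Agent.P372

/-- `LOCC K A B T f g`: there is a two-party protocol by local operations and public communication
on systems with orthonormal bases indexed by `A` and `B`, with complete public transcripts `t : T`
and keys in `K`, such that the event that the transcript is `t`, Alice's key is `k` and Bob's key is
`l` has the effect (Heisenberg picture) `f t k ⊗ g t l`.
* `output`: Alice measures the POVM `P`, Bob measures `Q`; the outcomes are the keys.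
* `alice`: Alice applies the instrument with Kraus operators `V m r` from `A` to `A'`, announces `m`
  (the index `r` is discarded) and a protocol depending on `m` follows.
* `bob`: the same with the roles exchanged. -/
inductive LOCC (K : Type) [Fintype K] :
    (A B T : Type) → (T → K → Matrix A A ℂ) → (T → K → Matrix B B ℂ) → Prop
  | output {A B : Type} [DecidableEq A] [DecidableEq B] (P : K → Matrix A A ℂ)
      (Q : K → Matrix B B ℂ) (hP : ∀ k, (P k).PosSemidef) (hP1 : ∑ k, P k = 1)
      (hQ : ∀ k, (Q k).PosSemidef) (hQ1 : ∑ k, Q k = 1) :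
      LOCC K A B Unit (fun _ => P) (fun _ => Q)
  | alice {A B : Type} [DecidableEq A] (A' M R : Type) [Fintype A'] [Fintype M] [Fintype R]
      (V : M → R → Matrix A' A ℂ) (hV : ∑ m, ∑ r, (V m r)ᴴ * V m r = 1) (T : M → Type)
      (f : ∀ m, T m → K → Matrix A' A' ℂ) (g : ∀ m, T m → K → Matrix B B ℂ)
      (h : ∀ m, LOCC K A' B (T m) (f m) (g m)) :
      LOCC K A B (Σ m, T m) (fun t k => ∑ r, (V t.1 r)ᴴ * f t.1 t.2 k * V t.1 r)
        (fun t k => g t.1 t.2 k)
  | bob {A B : Type} [DecidableEq B] (B' M R : Type) [Fintype B'] [Fintype M] [Fintype R]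
      (V : M → R → Matrix B' B ℂ) (hV : ∑ m, ∑ r, (V m r)ᴴ * V m r = 1) (T : M → Type)
      (f : ∀ m, T m → K → Matrix A A ℂ) (g : ∀ m, T m → K → Matrix B' B' ℂ)
      (h : ∀ m, LOCC K A B' (T m) (f m) (g m)) :
      LOCC K A B (Σ m, T m) (fun t k => f t.1 t.2 k)
        (fun t k => ∑ r, (V t.1 r)ᴴ * g t.1 t.2 k * V t.1 r)

/-- Trace norm: the sum of the singular values. -/
noncomputable def traceNorm {E : Type} [Fintype E] [DecidableEq E] (X : Matrix E E ℂ) : ℝ :=
  ∑ i, √((isHermitian_conjTranspose_mul_self X).eigenvalues i)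

variable {A B E : Type} [Fintype A] [Fintype B] [Fintype E]

/-- For a vector `Ψ` of the tripartite system `(A × B) × E`, written as a matrix, and local
operators `M`, `N`: Eve's operator `tr_{AB} [(M ⊗ N ⊗ 1) |Ψ⟩⟨Ψ|]`. -/
def eve (Ψ : Matrix (A × B) E ℂ) (M : Matrix A A ℂ) (N : Matrix B B ℂ) : Matrix E E ℂ :=
  fun e e' => ∑ p : A × B, ∑ q : A × B, M q.1 p.1 * N q.2 p.2 * (Ψ p e * star (Ψ q e'))

/-- The vector `Ψ^{⊗ n}`. -/
def copies (n : ℕ) (Ψ : Matrix (A × B) E ℂ) :
    Matrix ((Fin n → A) × (Fin n → B)) (Fin n → E) ℂ :=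
  fun p e => ∏ i, Ψ (p.1 i, p.2 i) (e i)

/-- The protocol with effects `f`, `g`, run on the vector `Ψ`, has error at most `ε`: the final
state of the two keys, Eve's system and the transcript is `ε`-close in trace norm to a uniform
shared key times a state `σ` of Eve's system and the transcript. -/
def KeyError {K T : Type} [Fintype K] [DecidableEq K] [Fintype T] [DecidableEq E]
    (f : T → K → Matrix A A ℂ) (g : T → K → Matrix B B ℂ) (Ψ : Matrix (A × B) E ℂ) (ε : ℝ) : Prop :=
  ∃ σ : T → Matrix E E ℂ, (∀ t, (σ t).PosSemidef) ∧ ∑ t, (σ t).trace = 1 ∧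
    ∑ t, ∑ k, ∑ l, traceNorm (eve Ψ (f t k) (g t l) -
      if k = l then ((Fintype.card K : ℂ)⁻¹) • σ t else 0) ≤ ε

/-- The distillable key of the state of `AB` purified by `Ψ`, Eve holding `E`: the supremum of
`liminf ℓ n / n` over sequences of protocols on `n` copies with keys in `{0,1}^(ℓ n)` and errors
tending to `0`. -/
noncomputable def distillableKey [DecidableEq E] (Ψ : Matrix (A × B) E ℂ) : EReal :=
  sSup {r : EReal | ∃ (ℓ : ℕ → ℕ) (ε : ℕ → ℝ),
    (∀ n, ∃ (T : Type) (_ : Fintype T)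
      (f : T → (Fin (ℓ n) → Bool) → Matrix (Fin n → A) (Fin n → A) ℂ)
      (g : T → (Fin (ℓ n) → Bool) → Matrix (Fin n → B) (Fin n → B) ℂ),
      LOCC (Fin (ℓ n) → Bool) (Fin n → A) (Fin n → B) T f g ∧
        KeyError f g (copies n Ψ) (ε n)) ∧
    Tendsto ε atTop (𝓝 0) ∧ r = liminf (fun n => (((ℓ n : ℝ) / (n : ℝ) : ℝ) : EReal)) atTop}

end Vale.Agent.P372
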