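import Vale.Agent.P372.Core

open Matrix Filter Topology
open scoped ComplexOrder MatrixOrder

set_option linter.unusedSectionVars false

namespace Vale.Agent.P372

variable {A B E : Type} [Fintype A] [DecidableEq A] [Fintype B] [DecidableEq B] [Fintype E]
  [DecidableEq E]

theorem piT_ite {N : ℕ} (c : Fin N → Prop) [∀ i, Decidable (c i)] (X : Fin N → Matrix E E ℂ) :
    piT (fun i => if c i then X i else 0) = if ∀ i, c i then piT X else 0 := by
  by_cases h : ∀ i, c i
  · rw [if_pos h]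
    simp only [h, if_true]
  · rw [if_neg h]
    push Not at h
    obtain ⟨i, hi⟩ := h
    ext e f
    rw [piT_apply]
    exact Finset.prod_eq_zero (Finset.mem_univ i) (by simp [hi])

theorem re_trace_piT {N : ℕ} {Y : Fin N → Matrix E E ℂ} (h : ∀ i, (Y i).PosSemidef) :
    (piT Y).trace.re = ∏ i, (Y i).trace.re := by
  have h1 : ∀ i, (Y i).trace = (((Y i).trace.re : ℝ) : ℂ) := by
    intro i
    have := (Complex.le_def.mp (h i).trace_nonneg).2
    apply Complex.ext
    · simp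
    · simpa using this.symm
  have h2 : (piT Y).trace = ((∏ i, (Y i).trace.re : ℝ) : ℂ) := by
    rw [piT_trace, Complex.ofReal_prod]
    exact Finset.prod_congr rfl fun i _ => h1 i
  rw [h2, Complex.ofReal_re]

theorem sum_prod_pattern {N : ℕ} {M₁ M₂ : Type} [Fintype M₁] [DecidableEq M₁] [Fintype M₂]
    [DecidableEq M₂] (c : M₁ → M₂ → ℝ) :
    ∑ f : Fin N → M₁, ∑ g : Fin N → M₂, ∏ i, c (f i) (g i) = (∑ f, ∑ g, c f g) ^ N := by
  have h1 : ∀ f : Fin N → M₁, ∑ g : Fin N → M₂, ∏ i, c (f i) (g i) = ∏ i, ∑ g, c (f i) g := by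
    intro f
    rw [Finset.prod_univ_sum]
    simp
  simp only [h1]
  have h2 := Finset.prod_univ_sum (fun _ : Fin N => (Finset.univ : Finset M₁))
    (fun _ f => ∑ g, c f g)
  simp only [Fintype.piFinset_univ] at h2
  rw [← h2]
  simp

theorem trace_copies (N : ℕ) (Ψ : Matrix (A × B) E ℂ) (hΨ : (Ψ * Ψᴴ).trace = 1) :
    (copies N Ψ * (copies N Ψ)ᴴ).trace = 1 := by
  rw [← trace_eve_one, ← piT_one, ← piT_one, eve_piT, piT_trace]
  simp [trace_eve_one, hΨ]

theorem sum_prod_fin {N : ℕ} {X : Type} [Fintype X] [DecidableEq X] (c : Fin N → X → ℝ) :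
    ∑ x : Fin N → X, ∏ i, c i (x i) = ∏ i, ∑ x, c i x := by
  rw [Finset.prod_univ_sum]
  simp

theorem sqrt_prod {N : ℕ} {c : Fin N → ℝ} (hc : ∀ i, 0 ≤ c i) : √(∏ i, c i) = ∏ i, √(c i) := by
  have h : ∏ i, c i = (∏ i, √(c i)) ^ 2 := by
    rw [← Finset.prod_pow]
    exact Finset.prod_congr rfl fun i _ => (Real.sq_sqrt (hc i)).symm
  rw [h, Real.sqrt_sq (Finset.prod_nonneg fun i _ => Real.sqrt_nonneg _)]

theorem re_trace_nonneg {X : Matrix E E ℂ} (h : X.PosSemidef) : 0 ≤ X.trace.re :=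
  (Complex.le_def.mp h.trace_nonneg).1

/-- the bound for one pattern of announcements -/
theorem pattern_bound {N : ℕ} {X β : Type} [Fintype X] [DecidableEq X] [Fintype β] [DecidableEq β]
    (w : Fin N → X → β → Matrix E E ℂ) (hw : ∀ i x y, (w i x y).PosSemidef)
    (P : Fin N → Matrix E E ℂ) (hP : ∀ i, (P i).PosSemidef) (D : Fin N → X → Matrix E E ℂ)
    (τ : Fin N → ℝ) (hτ : ∀ i, 1 ≤ τ i) (C : ℝ) (hC : 0 ≤ C) :
    2 * (((⌈∏ i, τ i⌉₊ : ℕ) : ℝ)⁻¹ * ∑ b : Fin N → β,
        (∑ x : Fin N → X, √((piT (fun i => w i (x i) (b i))).trace.re)) ^ 2) +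
      √(((piT P * piT P) * (piT P * piT P)).trace.re) * (√(((⌈∏ i, τ i⌉₊ : ℕ) : ℝ) * C) *
        √(∑ x : Fin N → X, ((piT (fun i => D i (x i)))ᴴ * piT (fun i => D i (x i))).trace.re)) ≤
    2 * (∏ i, ((τ i)⁻¹ * ∑ y, (∑ x, √((w i x y).trace.re)) ^ 2)) +
      √(2 * C) * ∏ i, √(τ i * (((P i * P i) * (P i * P i)).trace.re *
        ∑ x, ((D i x)ᴴ * D i x).trace.re)) := by
  have hτ0 : ∀ i, 0 < τ i := fun i => lt_of_lt_of_le one_pos (hτ i)
  have hprod1 : 1 ≤ ∏ i, τ i := by
    have := Finset.prod_le_prod (s := Finset.univ) (f := fun _ => (1 : ℝ))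
      (g := fun i => τ i) (fun _ _ => zero_le_one) (fun i _ => hτ _)
    simpa using this
  have hprod0 : 0 < ∏ i, τ i := lt_of_lt_of_le one_pos hprod1
  have hceil1 : ∏ i, τ i ≤ ((⌈∏ i, τ i⌉₊ : ℕ) : ℝ) := Nat.le_ceil _
  have hceil2 : ((⌈∏ i, τ i⌉₊ : ℕ) : ℝ) ≤ 2 * ∏ i, τ i := by
    have := Nat.ceil_lt_add_one hprod0.le
    linarith
  refine add_le_add ?_ ?_
  · refine mul_le_mul_of_nonneg_left ?_ (by norm_num)
    have h1 : ∑ b : Fin N → β, (∑ x : Fin N → X, √((piT (fun i => w i (x i) (b i))).trace.re)) ^ 2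
        = ∏ i, ∑ y, (∑ x, √((w i x y).trace.re)) ^ 2 := by
      rw [← sum_prod_fin (fun i y => (∑ x, √((w i x y).trace.re)) ^ 2)]
      refine Finset.sum_congr rfl fun b _ => ?_
      rw [Finset.prod_pow, ← sum_prod_fin (fun i x => √((w i x (b i)).trace.re))]
      congr 1
      refine Finset.sum_congr rfl fun x _ => ?_
      rw [re_trace_piT fun i => hw _ _ _, sqrt_prod fun i => re_trace_nonneg (hw _ _ _)]
    rw [h1, Finset.prod_mul_distrib, Finset.prod_inv_distrib]
    refine mul_le_mul_of_nonneg_right ?_ (Finset.prod_nonneg fun i _ =>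
      Finset.sum_nonneg fun y _ => sq_nonneg _)
    exact inv_anti₀ hprod0 hceil1
  · have h4 : ((piT P * piT P) * (piT P * piT P)).trace.re =
        ∏ i, ((P i * P i) * (P i * P i)).trace.re := by
      rw [← piT_mul, ← piT_mul, re_trace_piT]
      intro i
      have : P i * P i * (P i * P i) = (P i * P i)ᴴ * (P i * P i) := by
        rw [conjTranspose_mul, (hP i).isHermitian.eq]
      rw [this]
      exact posSemidef_conjTranspose_mul_self _
    have h5 : ∑ x : Fin N → X, ((piT (fun i => D i (x i)))ᴴ *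
        piT (fun i => D i (x i))).trace.re = ∏ i, ∑ x, ((D i x)ᴴ * D i x).trace.re := by
      rw [← sum_prod_fin]
      refine Finset.sum_congr rfl fun x _ => ?_
      rw [piT_conjTranspose, ← piT_mul, re_trace_piT]
      intro i
      exact posSemidef_conjTranspose_mul_self _
    have hP4 : ∀ i, 0 ≤ ((P i * P i) * (P i * P i)).trace.re := by
      intro i
      have : P i * P i * (P i * P i) = (P i * P i)ᴴ * (P i * P i) := by
        rw [conjTranspose_mul, (hP i).isHermitian.eq]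
      rw [this]
      exact re_trace_nonneg (posSemidef_conjTranspose_mul_self _)
    have hD2 : ∀ i, 0 ≤ ∑ x, ((D i x)ᴴ * D i x).trace.re := fun i =>
      Finset.sum_nonneg fun x _ => re_trace_nonneg (posSemidef_conjTranspose_mul_self _)
    rw [h4, h5]
    have h6 : √(((⌈∏ i, τ i⌉₊ : ℕ) : ℝ) * C) ≤ √(2 * C) * ∏ i, √(τ i) := by
      rw [← sqrt_prod fun i => (hτ0 i).le, ← Real.sqrt_mul (by positivity)]
      refine Real.sqrt_le_sqrt ?_
      nlinarith
    calc √(∏ i, ((P i * P i) * (P i * P i)).trace.re) * (√(((⌈∏ i, τ i⌉₊ : ℕ) : ℝ) * C) *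
          √(∏ i, ∑ x, ((D i x)ᴴ * D i x).trace.re))
        ≤ √(∏ i, ((P i * P i) * (P i * P i)).trace.re) * ((√(2 * C) * ∏ i, √(τ i)) *
          √(∏ i, ∑ x, ((D i x)ᴴ * D i x).trace.re)) := by
          refine mul_le_mul_of_nonneg_left ?_ (Real.sqrt_nonneg _)
          exact mul_le_mul_of_nonneg_right h6 (Real.sqrt_nonneg _)
      _ = _ := by
          rw [sqrt_prod hP4, sqrt_prod hD2]
          have : ∏ i, √(τ i * (((P i * P i) * (P i * P i)).trace.re *
              ∑ x, ((D i x)ᴴ * D i x).trace.re)) = (∏ i, √(τ i)) *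
              ((∏ i, √((((P i * P i) * (P i * P i)).trace.re))) *
              ∏ i, √(∑ x, ((D i x)ᴴ * D i x).trace.re)) := by
            rw [← Finset.prod_mul_distrib, ← Finset.prod_mul_distrib]
            refine Finset.prod_congr rfl fun i _ => ?_
            rw [Real.sqrt_mul (hτ0 i).le, Real.sqrt_mul (hP4 i)]
          rw [this]
          ring

section

variable {α β M₁ M₂ K X : Type} [Fintype α] [DecidableEq α] [Fintype β] [DecidableEq β]
  [Fintype M₁] [DecidableEq M₁] [Fintype M₂] [DecidableEq M₂]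
  [Fintype K] [DecidableEq K] [Fintype X] [DecidableEq X]

theorem omega_copies (N : ℕ) (Ψ : Matrix (A × B) E ℂ) (EA : α → Matrix A A ℂ)
    (FB : β → Matrix B B ℂ) (m₁ : α → M₁) (m₂ : β → M₂) (xs : α → M₂ → X)
    (f : Fin N → M₁) (g : Fin N → M₂) (x : Fin N → X) (b : Fin N → β) :
    omega (copies N Ψ) (fun a : Fin N → α => piT (fun i => EA (a i)))
      (fun b : Fin N → β => piT (fun i => FB (b i))) (fun a i => m₁ (a i)) (fun b i => m₂ (b i))
      (fun a g i => xs (a i) (g i)) f g x b =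
    piT (fun i => omega Ψ EA FB m₁ m₂ xs (f i) (g i) (x i) (b i)) := by
  simp only [omega]
  rw [piT_sum]
  refine Finset.sum_congr rfl fun a _ => ?_
  rw [piT_ite, eve_piT]
  refine if_congr ?_ rfl rfl
  simp only [funext_iff, forall_and]

/-- one block length -/
theorem block_error [Nonempty K] [Nonempty X] (N : ℕ) (Ψ : Matrix (A × B) E ℂ)
    (hΨ : (Ψ * Ψᴴ).trace = 1)
    (EA : α → Matrix A A ℂ) (hEA : ∀ a, (EA a).PosSemidef) (hEA1 : ∑ a, EA a = 1)
    (FB : β → Matrix B B ℂ) (hFB : ∀ a, (FB a).PosSemidef) (hFB1 : ∑ b, FB b = 1)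
    (m₁ : α → M₁) (m₂ : β → M₂) (xs : α → M₂ → X)
    (P : M₁ → M₂ → Matrix E E ℂ) (hP : ∀ f g, (P f g).PosSemidef)
    (D : M₁ → M₂ → X → Matrix E E ℂ)
    (hD : ∀ f g x, ∑ y, omega Ψ EA FB m₁ m₂ xs f g x y = P f g * D f g x * P f g)
    (τ : M₁ → M₂ → ℝ) (hτ : ∀ f g, 1 ≤ τ f g) :
    ∃ π : Protocol K (Fin N → A) (Fin N → B), π.Valid ∧ π.ErrorLE (copies N Ψ)
      (2 * (∑ f, ∑ g, (τ f g)⁻¹ *
        ∑ y, (∑ x, √((omega Ψ EA FB m₁ m₂ xs f g x y).trace.re)) ^ 2) ^ N +
      √(2 * Fintype.card K) * (∑ f, ∑ g, √(τ f g * (((P f g * P f g) * (P f g * P f g)).trace.re *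
        ∑ x, ((D f g x)ᴴ * D f g x).trace.re))) ^ N) := by
  classical
  set Ω := omega (copies N Ψ) (fun a : Fin N → α => piT (fun i => EA (a i)))
      (fun b : Fin N → β => piT (fun i => FB (b i))) (fun a i => m₁ (a i)) (fun b i => m₂ (b i))
      (fun a g i => xs (a i) (g i)) with hΩdef
  have hΩ : ∀ f g x b, Ω f g x b = piT (fun i => omega Ψ EA FB m₁ m₂ xs (f i) (g i) (x i) (b i)) :=
    fun f g x b => omega_copies N Ψ EA FB m₁ m₂ xs f g x b
  have hΩp : ∀ f g x b, (Ω f g x b).PosSemidef := by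
    intro f g x b
    rw [hΩ]
    exact piT_posSemidef fun i => omega_posSemidef Ψ hEA hFB _ _ _ _ _ _ _
  let S : (Fin N → M₁) → (Fin N → M₂) → ℕ := fun f g => ⌈∏ i, τ (f i) (g i)⌉₊
  have hprod1 : ∀ (f : Fin N → M₁) (g : Fin N → M₂), 1 ≤ ∏ i, τ (f i) (g i) := by
    intro f g
    have := Finset.prod_le_prod (s := Finset.univ) (f := fun _ => (1 : ℝ))
      (g := fun i => τ (f i) (g i)) (fun _ _ => zero_le_one) (fun i _ => hτ _ _)
    simpa using this
  have hS0 : ∀ f g, 0 < S f g := fun f g =>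
    Nat.ceil_pos.mpr (lt_of_lt_of_le one_pos (hprod1 f g))
  let T : ℕ := ∑ f, ∑ g, S f g
  have hST : ∀ f g, S f g ≤ T := fun f g =>
    le_trans (Finset.single_le_sum (f := fun g => S f g) (fun _ _ => Nat.zero_le _)
      (Finset.mem_univ g))
      (Finset.single_le_sum (f := fun f => ∑ g, S f g) (fun _ _ => Nat.zero_le _)
      (Finset.mem_univ f))
  have hDN : ∀ (f : Fin N → M₁) (g : Fin N → M₂) (x : Fin N → X), ∑ b, Ω f g x b =
      piT (fun i => P (f i) (g i)) * piT (fun i => D (f i) (g i) (x i)) *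
        piT (fun i => P (f i) (g i)) := by
    intro f g x
    simp only [hΩ]
    rw [← piT_sum (fun i β => omega Ψ EA FB m₁ m₂ xs (f i) (g i) (x i) β)]
    simp only [hD]
    rw [← piT_mul, ← piT_mul]
  have hex := fun (f : Fin N → M₁) (g : Fin N → M₂) =>
    hash_exists' (K := K) (S f g) (hS0 f g) (Fin.castLE (hST f g)) (Fin.castLE_injective _)
    (Ω f g) (hΩp f g) (piT (fun i => P (f i) (g i))) (piT_posSemidef fun i => hP _ _)
    (fun x => piT (fun i => D (f i) (g i) (x i))) (hDN f g)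
  choose h k dec hb using hex
  refine exists_protocol_of_hash (copies N Ψ) (trace_copies N Ψ hΨ)
    (fun a : Fin N → α => piT (fun i => EA (a i))) (fun a => piT_posSemidef fun i => hEA _) ?_
    (fun b : Fin N → β => piT (fun i => FB (b i))) (fun a => piT_posSemidef fun i => hFB _) ?_
    (fun a i => m₁ (a i)) (fun b i => m₂ (b i))
    (fun a g i => xs (a i) (g i)) h k dec _ ?_
  · rw [← piT_sum (fun _ a => EA a)]
    simp only [hEA1]
    exact piT_one
  · rw [← piT_sum (fun _ a => FB a)]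
    simp only [hFB1]
    exact piT_one
  · refine le_trans (Finset.sum_le_sum fun f _ => Finset.sum_le_sum fun g _ => hb f g) ?_
    rw [← sum_prod_pattern, ← sum_prod_pattern]
    simp only [Finset.mul_sum]
    simp only [← Finset.sum_add_distrib]
    refine Finset.sum_le_sum fun f _ => Finset.sum_le_sum fun g _ => ?_
    have := pattern_bound (fun i x y => omega Ψ EA FB m₁ m₂ xs (f i) (g i) x y)
      (fun i x y => omega_posSemidef Ψ hEA hFB _ _ _ _ _ _ _)
      (fun i => P (f i) (g i)) (fun i => hP _ _) (fun i x => D (f i) (g i) x)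
      (fun i => τ (f i) (g i)) (fun i => hτ _ _) (Fintype.card K : ℝ) (Nat.cast_nonneg _)
    simp only [hΩ]
    simpa only [Finset.mul_sum] using this

end

end Vale.Agent.P372
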