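import Vale.Agent.P372.Rate

open Matrix Filter Topology
open scoped ComplexOrder MatrixOrder

set_option linter.unusedSectionVars false

namespace Vale.Agent.P372

variable {A B E : Type} [Fintype A] [DecidableEq A] [Fintype B] [DecidableEq B] [Fintype E]
  [DecidableEq E]

section

variable {Y : Type} [Fintype Y] [DecidableEq Y] (Ψ : Matrix (A × B) E ℂ)
  (EA : Option Bool → Matrix A A ℂ) (FB : Option Y → Matrix B B ℂ)

/-- Eve's operators for the protocol with success flags. -/
def om (f g : Bool) (x : Bool) (y : Option Y) : Matrix E E ℂ :=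
  omega Ψ EA FB Option.isSome Option.isSome (fun a g => a.getD false && g) f g x y

theorem om_tt_some (x : Bool) (y : Y) :
    om Ψ EA FB true true x (some y) = eve Ψ (EA (some x)) (FB (some y)) := by
  simp only [om, omega, Fintype.sum_option, Fintype.sum_bool]
  cases x <;> simp

theorem om_tt_none (x : Bool) : om Ψ EA FB true true x none = 0 := by
  simp [om, omega]

theorem om_true {f g : Bool} (h : ¬ (f = true ∧ g = true)) (y : Option Y) :
    om Ψ EA FB f g true y = 0 := by
  simp only [om, omega, Fintype.sum_option, Fintype.sum_bool]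
  cases f <;> cases g <;> simp_all

theorem om_posSemidef (hEA : ∀ a, (EA a).PosSemidef) (hFB : ∀ a, (FB a).PosSemidef)
    (f g : Bool) (x : Bool) (y : Option Y) : (om Ψ EA FB f g x y).PosSemidef :=
  omega_posSemidef Ψ hEA hFB _ _ _ _ _ _ _

theorem sum_om (hEA1 : ∑ α, EA α = 1) (hFB1 : ∑ β, FB β = 1) :
    ∑ f, ∑ g, ∑ x, ∑ y, om Ψ EA FB f g x y = eve Ψ 1 1 := by
  have := sum_omega Ψ EA FB Option.isSome Option.isSome (fun a g => a.getD false && g)
  rw [hEA1, hFB1] at this
  exact this

end

theorem block_pos {Y : Type} [Fintype Y] [DecidableEq Y] (Ψ : Matrix (A × B) E ℂ)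
    (hΨ : (Ψ * Ψᴴ).trace = 1)
    (EA : Option Bool → Matrix A A ℂ) (hEA : ∀ α, (EA α).PosSemidef) (hEA1 : ∑ α, EA α = 1)
    (FB : Option Y → Matrix B B ℂ) (hFB : ∀ β, (FB β).PosSemidef) (hFB1 : ∑ β, FB β = 1)
    (P : Matrix E E ℂ) (hP : P.PosSemidef) (D : Bool → Matrix E E ℂ)
    (hD : ∀ x, eve Ψ (EA (some x)) (∑ y, FB (some y)) = P * D x * P)
    (p V2 Bh : ℝ) (hp : p = ∑ x, ∑ y, (eve Ψ (EA (some x)) (FB (some y))).trace.re)
    (hV : V2 = ((P * P) * (P * P)).trace.re * ∑ x, ((D x)ᴴ * D x).trace.re)
    (hB : Bh = ∑ y, (∑ x, √((eve Ψ (EA (some x)) (FB (some y))).trace.re)) ^ 2)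
    (hlt : V2 * Bh < p ^ 3) : 0 < KD Ψ := by
  classical
  have hpos := om_posSemidef Ψ EA FB hEA hFB
  have hP4 : 0 ≤ ((P * P) * (P * P)).trace.re := by
    have : P * P * (P * P) = (P * P)ᴴ * (P * P) := by
      rw [conjTranspose_mul, hP.isHermitian.eq]
    rw [this]
    exact re_trace_nonneg (posSemidef_conjTranspose_mul_self _)
  have hV0 : 0 ≤ V2 := by
    rw [hV]
    exact mul_nonneg hP4 (Finset.sum_nonneg fun x _ =>
      re_trace_nonneg (posSemidef_conjTranspose_mul_self _))
  have hterm : ∀ x y, 0 ≤ (eve Ψ (EA (some x)) (FB (some y))).trace.re := fun x y =>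
    re_trace_nonneg (eve_posSemidef Ψ (hEA _) (hFB _))
  have hp0 : 0 ≤ p := by
    rw [hp]
    exact Finset.sum_nonneg fun x _ => Finset.sum_nonneg fun y _ => hterm x y
  have hB0 : 0 ≤ Bh := by
    rw [hB]
    exact Finset.sum_nonneg fun y _ => sq_nonneg _
  have hpp : 0 < p := by
    rcases hp0.lt_or_eq with h | h
    · exact h
    · exfalso
      rw [← h] at hlt
      have := mul_nonneg hV0 hB0
      linarith [hlt, this, (by norm_num : (0 : ℝ) ^ 3 = 0)]
  have hBp : p ≤ Bh := by
    rw [hp, hB, Finset.sum_comm]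
    refine Finset.sum_le_sum fun y _ => ?_
    calc ∑ x, (eve Ψ (EA (some x)) (FB (some y))).trace.re =
        ∑ x, √((eve Ψ (EA (some x)) (FB (some y))).trace.re) ^ 2 :=
          Finset.sum_congr rfl fun x _ => (Real.sq_sqrt (hterm x y)).symm
      _ ≤ _ := Finset.sum_sq_le_sq_sum_of_nonneg fun x _ => Real.sqrt_nonneg _
  -- choice of the threshold
  obtain ⟨θ, hθ1, hθB, hθV⟩ : ∃ θ : ℝ, 1 ≤ θ ∧ Bh < θ * p ∧ θ * V2 < p ^ 2 := by
    have hgap : 0 < p ^ 3 - V2 * Bh := by linarith
    refine ⟨Bh / p + (p ^ 3 - V2 * Bh) / (p * (V2 + 1)), ?_, ?_, ?_⟩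
    · have h1 : 1 ≤ Bh / p := (one_le_div hpp).mpr hBp
      have h2 : 0 ≤ (p ^ 3 - V2 * Bh) / (p * (V2 + 1)) := by positivity
      linarith
    · have h2 : 0 < (p ^ 3 - V2 * Bh) / (p * (V2 + 1)) := by positivity
      have h3 : Bh / p * p = Bh := div_mul_cancel₀ _ hpp.ne'
      nlinarith
    · have h3 : (Bh / p + (p ^ 3 - V2 * Bh) / (p * (V2 + 1))) * V2 =
          (Bh * V2 * (V2 + 1) + (p ^ 3 - V2 * Bh) * V2) / (p * (V2 + 1)) := by
        field_simp
      rw [h3, div_lt_iff₀ (by positivity)]
      nlinarith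
  -- site data
  let W : Bool → Bool → Matrix E E ℂ := fun f g => ∑ x, ∑ y, om Ψ EA FB f g x y
  have hW : ∀ f g, (W f g).PosSemidef := fun f g =>
    posSemidef_sum _ fun x _ => posSemidef_sum _ fun y _ => hpos f g x y
  choose Q hQ hQ4 using fun f g => exists_fourth_root (hW f g)
  let PP : Bool → Bool → Matrix E E ℂ := fun f g => if f = true ∧ g = true then P else Q f g
  let DD : Bool → Bool → Bool → Matrix E E ℂ := fun f g x =>
    if f = true ∧ g = true then D x else if x = true then 0 else Q f g * Q f g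
  let τ : Bool → Bool → ℝ := fun f g => if f = true ∧ g = true then θ else 1
  have hPP : ∀ f g, (PP f g).PosSemidef := by
    intro f g
    by_cases h : f = true ∧ g = true
    · simp only [PP, h, and_self, if_true]
      exact hP
    · simp only [PP, h, if_false]
      exact hQ f g
  have hsumtt : ∀ x, ∑ y, om Ψ EA FB true true x y =
      eve Ψ (EA (some x)) (∑ y, FB (some y)) := by
    intro x
    rw [Fintype.sum_option, om_tt_none, zero_add, eve_sum_right]
    exact Finset.sum_congr rfl fun y _ => om_tt_some Ψ EA FB x y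
  have hWn : ∀ f g, ¬ (f = true ∧ g = true) → W f g = ∑ y, om Ψ EA FB f g false y := by
    intro f g h
    simp only [W, Fintype.sum_bool]
    simp only [om_true Ψ EA FB h, Finset.sum_const_zero, zero_add]
  have hDD : ∀ f g x, ∑ y, om Ψ EA FB f g x y = PP f g * DD f g x * PP f g := by
    intro f g x
    by_cases h : f = true ∧ g = true
    · obtain ⟨rfl, rfl⟩ := h
      simp only [PP, DD, and_self, if_true]
      rw [hsumtt, hD]
    · simp only [PP, DD, h, if_false]
      cases x
      · rw [← hWn f g h, ← hQ4 f g]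
        simp [Matrix.mul_assoc]
      · simp only [om_true Ψ EA FB h, Finset.sum_const_zero, if_true]
        simp
  have hτ : ∀ f g, 1 ≤ τ f g := by
    intro f g
    by_cases h : f = true ∧ g = true
    · simp only [τ, h, and_self, if_true]
      exact hθ1
    · simp only [τ, h, if_false]
      exact le_refl _
  have hWt : (W true true).trace.re = p := by
    simp only [W, hsumtt, eve_sum_right, trace_sum, Complex.re_sum]
    exact hp.symm
  have hWsum : ∑ f, ∑ g, (W f g).trace.re = 1 := by
    have h := sum_om Ψ EA FB hEA1 hFB1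
    have h2 := congrArg (fun M => (Matrix.trace M).re) h
    simp only [trace_eve_one, hΨ, Complex.one_re] at h2
    simp only [trace_sum, Complex.re_sum] at h2
    simp only [W, trace_sum, Complex.re_sum]
    exact h2
  have hBn : ∀ f g, ¬ (f = true ∧ g = true) →
      (τ f g)⁻¹ * ∑ y, (∑ x, √((om Ψ EA FB f g x y).trace.re)) ^ 2 = (W f g).trace.re := by
    intro f g h
    have h1 : τ f g = 1 := by simp only [τ, h, if_false]
    rw [h1, inv_one, one_mul, hWn f g h, trace_sum, Complex.re_sum]
    refine Finset.sum_congr rfl fun y _ => ?_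
    rw [Fintype.sum_bool, om_true Ψ EA FB h]
    simp only [trace_zero, Complex.zero_re, Real.sqrt_zero, zero_add]
    exact Real.sq_sqrt (re_trace_nonneg (hpos _ _ _ _))
  have hBt : (τ true true)⁻¹ * ∑ y, (∑ x, √((om Ψ EA FB true true x y).trace.re)) ^ 2 =
      θ⁻¹ * Bh := by
    have h1 : τ true true = θ := by simp only [τ, and_self, if_true]
    rw [h1, hB, Fintype.sum_option]
    congr 1
    simp only [om_tt_none, om_tt_some, trace_zero, Complex.zero_re, Real.sqrt_zero,
      Finset.sum_const_zero]
    simp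
  have hVn : ∀ f g, ¬ (f = true ∧ g = true) →
      √(τ f g * (((PP f g * PP f g) * (PP f g * PP f g)).trace.re *
        ∑ x, ((DD f g x)ᴴ * DD f g x).trace.re)) = (W f g).trace.re := by
    intro f g h
    have h1 : τ f g = 1 := by simp only [τ, h, if_false]
    have h2 : PP f g = Q f g := by simp only [PP, h, if_false]
    have h3 : DD f g true = 0 := by simp only [DD, h, if_false, if_true]
    have h4 : DD f g false = Q f g * Q f g := by simp [DD, h]
    rw [h1, h2, Fintype.sum_bool, h3, h4, hQ4, conjTranspose_mul, (hQ f g).isHermitian.eq, hQ4]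
    simp only [mul_zero, trace_zero, Complex.zero_re, zero_add, one_mul]
    exact Real.sqrt_mul_self (re_trace_nonneg (hW f g))
  have hVt : √(τ true true * (((PP true true * PP true true) *
      (PP true true * PP true true)).trace.re *
        ∑ x, ((DD true true x)ᴴ * DD true true x).trace.re)) = √(θ * V2) := by
    have h1 : τ true true = θ := by simp only [τ, and_self, if_true]
    have h2 : PP true true = P := by simp only [PP, and_self, if_true]
    have h3 : ∀ x, DD true true x = D x := fun x => by simp only [DD, and_self, if_true]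
    simp only [h1, h2, h3, hV]
  simp only [Fintype.sum_bool, hWt] at hWsum
  have hft : ¬ (true = true ∧ false = true) := by simp
  have htf : ¬ (false = true ∧ true = true) := by simp
  have hff : ¬ (false = true ∧ false = true) := by simp
  have n1 := re_trace_nonneg (hW true false)
  have n2 := re_trace_nonneg (hW false true)
  have n3 := re_trace_nonneg (hW false false)
  have hθ0 : 0 < θ := by linarith
  have hBθ : θ⁻¹ * Bh < p := by
    rw [inv_mul_lt_iff₀ hθ0]
    exact hθB
  have hVθ : √(θ * V2) < p := by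
    rw [Real.sqrt_lt' hpp]
    exact hθV
  have e4 : ∀ F : Bool → Bool → ℝ, ∑ f, ∑ g, F f g =
      F true true + F true false + (F false true + F false false) := by
    intro F
    simp only [Fintype.sum_bool]
  refine kd_pos_of_rate Ψ (q₁ := ∑ f, ∑ g, (τ f g)⁻¹ *
      ∑ y, (∑ x, √((om Ψ EA FB f g x y).trace.re)) ^ 2)
    (q₂ := ∑ f, ∑ g, √(τ f g * (((PP f g * PP f g) * (PP f g * PP f g)).trace.re *
        ∑ x, ((DD f g x)ᴴ * DD f g x).trace.re))) ?_ ?_ ?_ ?_ ?_
  · refine Finset.sum_nonneg fun f _ => Finset.sum_nonneg fun g _ => ?_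
    have := hτ f g
    positivity
  · rw [e4]
    rw [hBt, hBn true false hft, hBn false true htf, hBn false false hff]
    linarith
  · exact Finset.sum_nonneg fun f _ => Finset.sum_nonneg fun g _ => Real.sqrt_nonneg _
  · rw [e4]
    rw [hVt, hVn true false hft, hVn false true htf, hVn false false hff]
    linarith
  · intro N ℓ
    exact block_error N Ψ hΨ EA hEA hEA1 FB hFB hFB1 Option.isSome Option.isSome
      (fun a g => a.getD false && g) PP hPP DD hDD τ hτ

end Vale.Agent.P372
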