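import Mathlib

open Matrix
open scoped ComplexOrder MatrixOrder

namespace Vale.Agent.P372

set_option linter.unusedSectionVars false

variable {ι : Type} [Fintype ι] [DecidableEq ι]
variable {E F G : Type} [Fintype E] [DecidableEq E] [Fintype F] [DecidableEq F] [Fintype G]
  [DecidableEq G]

/-- tensor product of a family of matrices -/
def piT (X : ι → Matrix E F ℂ) : Matrix (ι → E) (ι → F) ℂ := fun e f => ∏ i, X i (e i) (f i)

theorem piT_mul (X : ι → Matrix E F ℂ) (Y : ι → Matrix F G ℂ) :
    piT (fun i => X i * Y i) = piT X * piT Y := by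
  ext e g
  simp only [piT, Matrix.mul_apply]
  rw [Finset.prod_univ_sum]
  simp only [Fintype.piFinset_univ, Finset.prod_mul_distrib]

theorem piT_trace (X : ι → Matrix E E ℂ) : (piT X).trace = ∏ i, (X i).trace := by
  simp only [piT, Matrix.trace, Matrix.diag]
  rw [Finset.prod_univ_sum]
  simp only [Fintype.piFinset_univ]

theorem piT_conjTranspose (X : ι → Matrix E F ℂ) : (piT X)ᴴ = piT (fun i => (X i)ᴴ) := by
  ext e f
  simp only [piT, Matrix.conjTranspose_apply, star_prod]

theorem piT_one : piT (fun _ : ι => (1 : Matrix E E ℂ)) = 1 := by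
  ext e f
  simp only [piT, Matrix.one_apply]
  by_cases h : e = f
  · subst h
    simp
  · rw [if_neg h]
    obtain ⟨i, hi⟩ := Function.ne_iff.mp h
    exact Finset.prod_eq_zero (Finset.mem_univ i) (by simp [hi])

theorem piT_sum {κ : Type} [Fintype κ] (X : ι → κ → Matrix E F ℂ) :
    piT (fun i => ∑ x, X i x) = ∑ x : ι → κ, piT (fun i => X i (x i)) := by
  ext e f
  simp only [piT, Matrix.sum_apply]
  rw [Finset.prod_univ_sum]
  simp only [Fintype.piFinset_univ]

theorem exists_eq_conjTranspose_mul_self {X : Matrix E E ℂ} (h : X.PosSemidef) :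
    ∃ C : Matrix E E ℂ, X = Cᴴ * C := by
  obtain ⟨C, hC⟩ := CStarAlgebra.nonneg_iff_eq_star_mul_self.mp h.nonneg
  exact ⟨C, by rw [hC, star_eq_conjTranspose]⟩

theorem piT_posSemidef {X : ι → Matrix E E ℂ} (h : ∀ i, (X i).PosSemidef) :
    (piT X).PosSemidef := by
  choose C hC using fun i => exists_eq_conjTranspose_mul_self (h i)
  have : piT X = (piT C)ᴴ * piT C := by
    rw [piT_conjTranspose, ← piT_mul]
    congr 1
    funext i
    exact hC i
  rw [this]
  exact Matrix.posSemidef_conjTranspose_mul_self _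

theorem piT_apply (X : ι → Matrix E F ℂ) (e : ι → E) (f : ι → F) :
    piT X e f = ∏ i, X i (e i) (f i) := rfl

end Vale.Agent.P372
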