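import Vale.Agent.P372.Defs
import Vale.Agent.P372.PiTensor

open Matrix
open scoped ComplexOrder MatrixOrder

set_option linter.unusedSectionVars false

namespace Vale.Agent.P372

variable {A B E : Type} [Fintype A] [DecidableEq A] [Fintype B] [DecidableEq B] [Fintype E]
  [DecidableEq E]

theorem sum3_comm {ι : Type} (s : Finset ι) (F : (A × B) → (A × B) → ι → ℂ) :
    ∑ p, ∑ q, ∑ i ∈ s, F p q i = ∑ i ∈ s, ∑ p, ∑ q, F p q i := by
  rw [Finset.sum_congr rfl fun p _ => Finset.sum_comm, Finset.sum_comm]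

theorem eve_sum_left {ι : Type} (s : Finset ι) (Ψ : Matrix (A × B) E ℂ) (M : ι → Matrix A A ℂ)
    (N : Matrix B B ℂ) : eve Ψ (∑ i ∈ s, M i) N = ∑ i ∈ s, eve Ψ (M i) N := by
  ext e e'
  simp only [eve, Matrix.sum_apply, Finset.sum_mul]
  exact sum3_comm s _

theorem eve_sum_right {ι : Type} (s : Finset ι) (Ψ : Matrix (A × B) E ℂ) (M : Matrix A A ℂ)
    (N : ι → Matrix B B ℂ) : eve Ψ M (∑ i ∈ s, N i) = ∑ i ∈ s, eve Ψ M (N i) := by
  ext e e'
  simp only [eve, Matrix.sum_apply, Finset.sum_mul, Finset.mul_sum]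
  exact sum3_comm s _

theorem eve_zero_left (Ψ : Matrix (A × B) E ℂ) (N : Matrix B B ℂ) : eve Ψ 0 N = 0 := by
  ext e e'
  simp [eve]

theorem eve_zero_right (Ψ : Matrix (A × B) E ℂ) (M : Matrix A A ℂ) : eve Ψ M 0 = 0 := by
  ext e e'
  simp [eve]

theorem eve_posSemidef (Ψ : Matrix (A × B) E ℂ) {M : Matrix A A ℂ} {N : Matrix B B ℂ}
    (hM : M.PosSemidef) (hN : N.PosSemidef) : (eve Ψ M N).PosSemidef := by
  obtain ⟨C, rfl⟩ := exists_eq_conjTranspose_mul_self hM
  obtain ⟨D, rfl⟩ := exists_eq_conjTranspose_mul_self hN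
  have : eve Ψ (Cᴴ * C) (Dᴴ * D) =
      (Matrix.of fun (r : A × B) (e : E) => star (∑ p : A × B, C r.1 p.1 * D r.2 p.2 * Ψ p e))ᴴ *
      (Matrix.of fun (r : A × B) (e : E) => star (∑ p : A × B, C r.1 p.1 * D r.2 p.2 * Ψ p e)) := by
    ext e e'
    simp only [eve, Matrix.mul_apply, conjTranspose_apply, Matrix.of_apply, star_star]
    have h1 : ∀ p q : A × B, (∑ r, star (C r q.1) * C r p.1) * (∑ r, star (D r q.2) * D r p.2) *
        (Ψ p e * star (Ψ q e')) = ∑ r : A × B, (C r.1 p.1 * D r.2 p.2 * Ψ p e) *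
          star (C r.1 q.1 * D r.2 q.2 * Ψ q e') := by
      intro p q
      rw [Finset.sum_mul_sum, Fintype.sum_prod_type, Finset.sum_mul]
      refine Finset.sum_congr rfl fun r _ => ?_
      rw [Finset.sum_mul]
      refine Finset.sum_congr rfl fun r' _ => ?_
      simp only [star_mul']
      ring
    calc _ = ∑ p, ∑ q, ∑ r ∈ (Finset.univ : Finset (A × B)), (C r.1 p.1 * D r.2 p.2 * Ψ p e) *
          star (C r.1 q.1 * D r.2 q.2 * Ψ q e') :=
        Finset.sum_congr rfl fun p _ => Finset.sum_congr rfl fun q _ => h1 p q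
      _ = ∑ r ∈ (Finset.univ : Finset (A × B)), ∑ p, ∑ q, (C r.1 p.1 * D r.2 p.2 * Ψ p e) *
          star (C r.1 q.1 * D r.2 q.2 * Ψ q e') := sum3_comm _ _
      _ = _ := by
        refine Finset.sum_congr rfl fun r _ => ?_
        rw [star_sum, Finset.sum_mul_sum]
  rw [this]
  exact posSemidef_conjTranspose_mul_self _

theorem trace_eve_one (Ψ : Matrix (A × B) E ℂ) : (eve Ψ 1 1).trace = (Ψ * Ψᴴ).trace := by
  simp only [eve, Matrix.trace, Matrix.diag, Matrix.mul_apply, conjTranspose_apply]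
  rw [Finset.sum_comm]
  refine Finset.sum_congr rfl fun p _ => ?_
  refine Finset.sum_congr rfl fun e _ => ?_
  rw [Finset.sum_eq_single p]
  · simp
  · intro q _ hq
    by_cases h : q.1 = p.1
    · have : q.2 ≠ p.2 := fun h' => hq (Prod.ext h h')
      simp [Matrix.one_apply, this]
    · simp [Matrix.one_apply, h]
  · simp

theorem eve_piT (n : ℕ) (Ψ : Matrix (A × B) E ℂ) (M : Fin n → Matrix A A ℂ)
    (N : Fin n → Matrix B B ℂ) :
    eve (copies n Ψ) (piT M) (piT N) = piT (fun i => eve Ψ (M i) (N i)) := by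
  ext e e'
  simp only [eve, piT, copies, Fintype.sum_prod_type, Finset.prod_univ_sum,
    Fintype.piFinset_univ, star_prod, Finset.prod_mul_distrib]

end Vale.Agent.P372
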