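import Vale.Agent.P372.Defs

open Matrix
open scoped ComplexOrder MatrixOrder

set_option linter.unusedSectionVars false

namespace Vale.Agent.P372

variable {A B : Type} [Fintype A] [DecidableEq A] [Fintype B] [DecidableEq B]

/-- Kraus operators which write the outcome of a measurement into a register. -/
def wr {α M : Type} [DecidableEq M] (L : α → Matrix A A ℂ) (f : α → M) (m : M) (j : A) :
    Matrix α A ℂ := fun a i => if f a = m then L a j i else 0

theorem wr_conj {α M : Type} [Fintype α] [DecidableEq α] [DecidableEq M] (L : α → Matrix A A ℂ)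
    (f : α → M) (m : M) (x : α → ℂ) :
    ∑ j, (wr L f m j)ᴴ * diagonal x * wr L f m j =
      ∑ a, if f a = m then x a • ((L a)ᴴ * L a) else 0 := by
  ext i i'
  have h1 : ∀ j, ((wr L f m j)ᴴ * diagonal x * wr L f m j) i i' =
      ∑ a, star (wr L f m j a i) * x a * wr L f m j a i' := by
    intro j
    rw [Matrix.mul_apply]
    refine Finset.sum_congr rfl fun a _ => ?_
    rw [Matrix.mul_diagonal, conjTranspose_apply]
  simp only [Matrix.sum_apply, h1]
  rw [Finset.sum_comm]
  refine Finset.sum_congr rfl fun a _ => ?_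
  by_cases h : f a = m
  · simp only [wr, h, if_true, Matrix.smul_apply, Matrix.mul_apply, smul_eq_mul, Finset.mul_sum,
      conjTranspose_apply]
    refine Finset.sum_congr rfl fun j _ => ?_
    ring
  · simp [wr, h]

/-- The three-message protocol: Alice measures `E`, announces `m₁`; Bob measures `F`, announces
`m₂`; Alice announces `m₃`; keys `kA`, `kB`. -/
def threeMsg {K α β M₁ M₂ M₃ : Type} [DecidableEq K] [Fintype α] [DecidableEq α] [Fintype β]
    [DecidableEq β] [Fintype M₁] [DecidableEq M₁] [Fintype M₂] [DecidableEq M₂] [Fintype M₃]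
    [DecidableEq M₃] (L : α → Matrix A A ℂ) (L' : β → Matrix B B ℂ)
    (m₁ : α → M₁) (m₂ : β → M₂) (m₃ : α → M₂ → M₃) (kA : α → M₂ → K) (kB : β → M₁ → M₃ → K) :
    Protocol K A B :=
  .alice α M₁ A inferInstance inferInstance inferInstance (wr L m₁) fun f =>
    .bob β M₂ B inferInstance inferInstance inferInstance (wr L' m₂) fun g =>
      .alice α M₃ Unit inferInstance inferInstance inferInstance
        (fun c _ => diagonal fun a => if m₃ a g = c then 1 else 0) fun c =>
          .output (fun k => diagonal fun a => if kA a g = k then 1 else 0)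
            (fun l => diagonal fun b => if kB b f c = l then 1 else 0)

section

variable {K α β M₁ M₂ M₃ : Type} [Fintype K] [DecidableEq K] [Fintype α] [DecidableEq α]
  [Fintype β]
  [DecidableEq β] [Fintype M₁] [DecidableEq M₁] [Fintype M₂] [DecidableEq M₂] [Fintype M₃]
  [DecidableEq M₃] (L : α → Matrix A A ℂ) (L' : β → Matrix B B ℂ)
  (m₁ : α → M₁) (m₂ : β → M₂) (m₃ : α → M₂ → M₃) (kA : α → M₂ → K) (kB : β → M₁ → M₃ → K)

/-- The transcripts of the three-message protocol. -/
def threeMsgEquiv : (threeMsg L L' m₁ m₂ m₃ kA kB).Transcript ≃ M₁ × M₂ × M₃ where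
  toFun t := (t.1, t.2.1, t.2.2.1)
  invFun p := ⟨p.1, p.2.1, p.2.2, ()⟩
  left_inv _ := rfl
  right_inv _ := rfl

theorem sum_wr {α M : Type} [Fintype α] [DecidableEq α] [Fintype M] [DecidableEq M]
    (L : α → Matrix A A ℂ) (f : α → M) :
    ∑ m, ∑ j, (wr L f m j)ᴴ * wr L f m j = ∑ a, (L a)ᴴ * L a := by
  have h : ∀ m, ∑ j, (wr L f m j)ᴴ * wr L f m j = ∑ a, if f a = m then ((L a)ᴴ * L a) else 0 := by
    intro m
    have := wr_conj L f m (fun _ => 1)
    simpa using this
  simp only [h]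
  rw [Finset.sum_comm]
  simp

theorem sum_diag_ite {α M : Type} [Fintype α] [DecidableEq α] [Fintype M] [DecidableEq M]
    (f : α → M) : ∑ m, (diagonal fun a => if f a = m then (1 : ℂ) else 0) = 1 := by
  ext a b
  simp only [Matrix.sum_apply, diagonal_apply, Matrix.one_apply]
  by_cases h : a = b
  · simp [h]
  · simp [h]

/-- The identity matrices for two decidability instances agree. -/
theorem one_congr {γ : Type} (i j : DecidableEq γ) :
    (@OfNat.ofNat (Matrix γ γ ℂ) 1 (@One.toOfNat1 _ (@Matrix.one γ ℂ i _ _))) =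
      (@OfNat.ofNat (Matrix γ γ ℂ) 1 (@One.toOfNat1 _ (@Matrix.one γ ℂ j _ _))) := by
  rw [Subsingleton.elim i j]

theorem threeMsg_valid (hL : ∑ a, (L a)ᴴ * L a = 1) (hL' : ∑ a, (L' a)ᴴ * L' a = 1) :
    (threeMsg L L' m₁ m₂ m₃ kA kB).Valid := by
  refine ⟨?_, fun f => ⟨?_, fun g => ⟨?_, fun c => ⟨⟨?_, ?_⟩, ⟨?_, ?_⟩⟩⟩⟩⟩
  · rw [sum_wr, hL]
    exact one_congr _ _
  · rw [sum_wr, hL']
    exact one_congr _ _
  · have : ∀ c, ∑ _r : Unit, (diagonal fun a => if m₃ a g = c then (1 : ℂ) else 0)ᴴ *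
        (diagonal fun a => if m₃ a g = c then (1 : ℂ) else 0) =
        (diagonal fun a => if m₃ a g = c then (1 : ℂ) else 0) := by
      intro c
      simp only [Finset.univ_unique, Finset.sum_const, Finset.card_singleton, one_smul,
        diagonal_conjTranspose, diagonal_mul_diagonal]
      congr 1
      funext a
      by_cases h : m₃ a g = c <;> simp [h]
    simp only [this]
    rw [sum_diag_ite]
    exact one_congr _ _
  · intro k
    refine PosSemidef.diagonal fun a => ?_
    by_cases h : kA a g = k <;> simp [h]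
  · rw [sum_diag_ite]
    exact one_congr _ _
  · intro k
    refine PosSemidef.diagonal fun a => ?_
    by_cases h : kB a f c = k <;> simp [h]
  · rw [sum_diag_ite]
    exact one_congr _ _

theorem threeMsg_effA (t) (k : K) : (threeMsg L L' m₁ m₂ m₃ kA kB).effA t k =
    ∑ a, if m₁ a = (threeMsgEquiv L L' m₁ m₂ m₃ kA kB t).1 ∧
      m₃ a (threeMsgEquiv L L' m₁ m₂ m₃ kA kB t).2.1 = (threeMsgEquiv L L' m₁ m₂ m₃ kA kB t).2.2 ∧
      kA a (threeMsgEquiv L L' m₁ m₂ m₃ kA kB t).2.1 = k then (L a)ᴴ * L a else 0 := by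
  obtain ⟨f, g, c, u⟩ := t
  change ∑ j, (wr L m₁ f j)ᴴ * (∑ _r : Unit,
    (diagonal fun a => if m₃ a g = c then (1 : ℂ) else 0)ᴴ *
    (diagonal fun a => if kA a g = k then (1 : ℂ) else 0) *
    (diagonal fun a => if m₃ a g = c then (1 : ℂ) else 0)) * wr L m₁ f j = 
    ∑ a, if m₁ a = f ∧ m₃ a g = c ∧ kA a g = k then (L a)ᴴ * L a else 0
  simp only [Finset.univ_unique, Finset.sum_const, Finset.card_singleton, one_smul,
    diagonal_conjTranspose, diagonal_mul_diagonal]
  rw [wr_conj]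
  refine Finset.sum_congr rfl fun a _ => ?_
  by_cases h1 : m₁ a = f <;> by_cases h2 : m₃ a g = c <;> by_cases h3 : kA a g = k <;>
    simp [h1, h2, h3]

theorem threeMsg_effB (t) (k : K) : (threeMsg L L' m₁ m₂ m₃ kA kB).effB t k =
    ∑ b, if m₂ b = (threeMsgEquiv L L' m₁ m₂ m₃ kA kB t).2.1 ∧
      kB b (threeMsgEquiv L L' m₁ m₂ m₃ kA kB t).1 (threeMsgEquiv L L' m₁ m₂ m₃ kA kB t).2.2 = k
      then (L' b)ᴴ * L' b else 0 := by
  obtain ⟨f, g, c, u⟩ := t
  change ∑ j, (wr L' m₂ g j)ᴴ *
    (diagonal fun b => if kB b f c = k then (1 : ℂ) else 0) * wr L' m₂ g j = 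
    ∑ b, if m₂ b = g ∧ kB b f c = k then (L' b)ᴴ * L' b else 0
  rw [wr_conj]
  refine Finset.sum_congr rfl fun a _ => ?_
  by_cases h1 : m₂ a = g <;> by_cases h3 : kB a f c = k <;> simp [h1, h3]

end

end Vale.Agent.P372
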