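import Vale.Agent.P372.Hash
import Vale.Agent.P372.Proto
import Vale.Agent.P372.Eve

open Matrix
open scoped ComplexOrder MatrixOrder

set_option linter.unusedSectionVars false

namespace Vale.Agent.P372

theorem hash_exists' {X Y K M E : Type} [Fintype X] [DecidableEq X] [Fintype Y] [DecidableEq Y]
    [Fintype K] [DecidableEq K] [Fintype M] [DecidableEq M] [Fintype E] [DecidableEq E]
    [Nonempty X] [Nonempty K] (S : ℕ) (hS : 0 < S) (ι : Fin S → M) (hι : Function.Injective ι)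
    (Ω : X → Y → Matrix E E ℂ) (hΩ : ∀ x y, (Ω x y).PosSemidef)
    (P : Matrix E E ℂ) (hP : P.PosSemidef) (D : X → Matrix E E ℂ)
    (hD : ∀ x, ∑ y, Ω x y = P * D x * P) :
    ∃ (h : X → M) (k : X → K) (dec : Y → M → X),
      ∑ c, ∑ κ, ∑ l, traceNorm ((∑ x, ∑ y, if h x = c ∧ k x = κ ∧ k (dec y c) = l then Ω x y else 0)
        - if κ = l then ((Fintype.card K : ℂ)⁻¹) • ∑ x, ∑ y, (if h x = c then Ω x y else 0) else 0)
      ≤ 2 * ((S : ℝ)⁻¹ * ∑ y, (∑ x, √((Ω x y).trace.re)) ^ 2) +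
        √(((P*P)*(P*P)).trace.re) * (√(S * Fintype.card K) *
        √(∑ x, ((D x)ᴴ * D x).trace.re)) := by
  obtain ⟨h, k, dec, hb⟩ := hash_exists (K := K) S hS Ω hΩ P hP D hD
  have : Nonempty (Fin S) := ⟨⟨0, hS⟩⟩
  refine ⟨fun x => ι (h x), k, fun y c => dec y (Function.invFun ι c), le_trans (le_of_eq ?_) hb⟩
  symm
  refine Fintype.sum_of_injective ι hι _ _ ?_ ?_
  · intro c hc
    have h1 : ∀ x, ι (h x) ≠ c := fun x hx => hc ⟨h x, hx⟩
    refine Finset.sum_eq_zero fun κ _ => Finset.sum_eq_zero fun l _ => ?_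
    simp [h1, traceNorm_zero]
  · intro c
    simp only [hι.eq_iff, Function.leftInverse_invFun hι c]

section proto

variable {A B E : Type} [Fintype A] [DecidableEq A] [Fintype B] [DecidableEq B] [Fintype E]
  [DecidableEq E]
variable {α β M₁ M₂ M₃ K X : Type} [Fintype α] [DecidableEq α] [Fintype β] [DecidableEq β]
  [Fintype M₁] [DecidableEq M₁] [Fintype M₂] [DecidableEq M₂] [Fintype M₃] [DecidableEq M₃]
  [Fintype K] [DecidableEq K] [Fintype X] [DecidableEq X]

/-- Eve's operator, given both announcements, the raw string and Bob's outcome. -/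
def omega (Ψ : Matrix (A × B) E ℂ) (EA : α → Matrix A A ℂ) (FB : β → Matrix B B ℂ)
    (m₁ : α → M₁) (m₂ : β → M₂) (xs : α → M₂ → X) (f : M₁) (g : M₂) (x : X) (y : β) :
    Matrix E E ℂ :=
  ∑ a, if m₁ a = f ∧ xs a g = x ∧ m₂ y = g then eve Ψ (EA a) (FB y) else 0

theorem omega_posSemidef (Ψ : Matrix (A × B) E ℂ) {EA : α → Matrix A A ℂ}
    {FB : β → Matrix B B ℂ} (hEA : ∀ a, (EA a).PosSemidef) (hFB : ∀ a, (FB a).PosSemidef)
    (m₁ : α → M₁) (m₂ : β → M₂) (xs : α → M₂ → X) (f : M₁) (g : M₂) (x : X) (y : β) :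
    (omega Ψ EA FB m₁ m₂ xs f g x y).PosSemidef := by
  refine posSemidef_sum _ fun a _ => ?_
  split_ifs
  · exact eve_posSemidef Ψ (hEA a) (hFB y)
  · exact PosSemidef.zero

theorem sum_omega (Ψ : Matrix (A × B) E ℂ) (EA : α → Matrix A A ℂ) (FB : β → Matrix B B ℂ)
    (m₁ : α → M₁) (m₂ : β → M₂) (xs : α → M₂ → X) :
    ∑ f, ∑ g, ∑ x, ∑ y, omega Ψ EA FB m₁ m₂ xs f g x y = eve Ψ (∑ a, EA a) (∑ b, FB b) := by
  rw [eve_sum_left]
  simp only [eve_sum_right, omega]
  have h1 : ∀ (F : M₁ × M₂ × X → β × α → Matrix E E ℂ), ∑ p, ∑ q, F p q = ∑ q, ∑ p, F p q :=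
    fun F => Finset.sum_comm
  have h2 := h1 (fun p q => if m₁ q.2 = p.1 ∧ xs q.2 p.2.1 = p.2.2 ∧ m₂ q.1 = p.2.1 then
    eve Ψ (EA q.2) (FB q.1) else 0)
  simp only [Fintype.sum_prod_type] at h2
  rw [h2, Finset.sum_comm]
  refine Finset.sum_congr rfl fun a _ => Finset.sum_congr rfl fun b _ => ?_
  rw [Finset.sum_eq_single (m₁ a), Finset.sum_eq_single (m₂ b), Finset.sum_eq_single (xs a (m₂ b))]
  · simp
  · intro x _ hx
    simp [hx.symm]
  · simp
  · intro g _ hg
    simp [hg.symm]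
  · simp
  · intro f _ hf
    simp [hf.symm]
  · simp

theorem exists_protocol_of_hash (Ψ : Matrix (A × B) E ℂ) (hΨ : (Ψ * Ψᴴ).trace = 1)
    (EA : α → Matrix A A ℂ) (hEA : ∀ a, (EA a).PosSemidef) (hEA1 : ∑ a, EA a = 1)
    (FB : β → Matrix B B ℂ) (hFB : ∀ a, (FB a).PosSemidef) (hFB1 : ∑ b, FB b = 1)
    (m₁ : α → M₁) (m₂ : β → M₂) (xs : α → M₂ → X) (h : M₁ → M₂ → X → M₃)
    (k : M₁ → M₂ → X → K) (dec : M₁ → M₂ → β → M₃ → X) (ε : ℝ)
    (hε : ∑ f, ∑ g, ∑ c, ∑ κ, ∑ l, traceNorm ((∑ x, ∑ y,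
        if h f g x = c ∧ k f g x = κ ∧ k f g (dec f g y c) = l then
          omega Ψ EA FB m₁ m₂ xs f g x y else 0)
        - if κ = l then ((Fintype.card K : ℂ)⁻¹) • ∑ x, ∑ y, (if h f g x = c then
          omega Ψ EA FB m₁ m₂ xs f g x y else 0) else 0) ≤ ε) :
    ∃ π : Protocol K A B, π.Valid ∧ π.ErrorLE Ψ ε := by
  choose L hL using fun a => exists_eq_conjTranspose_mul_self (hEA a)
  choose L' hL' using fun a => exists_eq_conjTranspose_mul_self (hFB a)
  refine ⟨threeMsg L L' m₁ m₂ (fun a g => h (m₁ a) g (xs a g)) (fun a g => k (m₁ a) g (xs a g))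
    (fun b f c => k f (m₂ b) (dec f (m₂ b) b c)), ?_, ?_⟩
  · refine threeMsg_valid _ _ _ _ _ _ _ ?_ ?_
    · rw [← hEA1]
      exact Finset.sum_congr rfl fun a _ => (hL a).symm
    · rw [← hFB1]
      exact Finset.sum_congr rfl fun a _ => (hL' a).symm
  · refine ⟨fun t => ∑ x, ∑ y, if h (threeMsgEquiv _ _ _ _ _ _ _ t).1
      (threeMsgEquiv _ _ _ _ _ _ _ t).2.1 x = (threeMsgEquiv _ _ _ _ _ _ _ t).2.2 then
      omega Ψ EA FB m₁ m₂ xs (threeMsgEquiv _ _ _ _ _ _ _ t).1
      (threeMsgEquiv _ _ _ _ _ _ _ t).2.1 x y else 0, ?_, ?_, ?_⟩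
    · intro t
      refine posSemidef_sum _ fun x _ => posSemidef_sum _ fun y _ => ?_
      split_ifs
      · exact omega_posSemidef Ψ hEA hFB _ _ _ _ _ _ _
      · exact PosSemidef.zero
    · rw [Fintype.sum_equiv (threeMsgEquiv L L' m₁ m₂ _ _ _) _ (fun p : M₁ × M₂ × M₃ =>
        (∑ x, ∑ y, if h p.1 p.2.1 x = p.2.2 then
        omega Ψ EA FB m₁ m₂ xs p.1 p.2.1 x y else 0).trace) (fun t => rfl)]
      simp only [Fintype.sum_prod_type]
      have h1 : ∀ f g, ∑ c, (∑ x, ∑ y, if h f g x = c then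
          omega Ψ EA FB m₁ m₂ xs f g x y else 0).trace =
          (∑ x, ∑ y, omega Ψ EA FB m₁ m₂ xs f g x y).trace := by
        intro f g
        rw [← trace_sum]
        congr 1
        rw [Finset.sum_comm]
        refine Finset.sum_congr rfl fun x _ => ?_
        rw [Finset.sum_comm]
        refine Finset.sum_congr rfl fun y _ => ?_
        simp
      simp only [h1]
      simp only [← trace_sum]
      rw [sum_omega, hEA1, hFB1, trace_eve_one, hΨ]
    · refine le_trans (le_of_eq ?_) hε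
      rw [Fintype.sum_equiv (threeMsgEquiv L L' m₁ m₂ _ _ _) _ (fun p : M₁ × M₂ × M₃ =>
        ∑ κ, ∑ l, traceNorm ((∑ x, ∑ y,
        if h p.1 p.2.1 x = p.2.2 ∧ k p.1 p.2.1 x = κ ∧ k p.1 p.2.1 (dec p.1 p.2.1 y p.2.2) = l then
          omega Ψ EA FB m₁ m₂ xs p.1 p.2.1 x y else 0)
        - if κ = l then ((Fintype.card K : ℂ)⁻¹) • ∑ x, ∑ y, (if h p.1 p.2.1 x = p.2.2 then
          omega Ψ EA FB m₁ m₂ xs p.1 p.2.1 x y else 0) else 0)) ?_]
      · simp only [Fintype.sum_prod_type]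
      · intro t
        refine Finset.sum_congr rfl fun κ _ => Finset.sum_congr rfl fun l _ => ?_
        congr 2
        rw [threeMsg_effA, threeMsg_effB, eve_sum_left]
        simp only [eve_sum_right]
        generalize threeMsgEquiv L L' m₁ m₂ _ _ _ t = p
        obtain ⟨f, g, c⟩ := p
        simp only [omega]
        have e1 : ∀ a b, eve Ψ (if m₁ a = f ∧ h (m₁ a) g (xs a g) = c ∧ k (m₁ a) g (xs a g) = κ
            then (L a)ᴴ * L a else 0) (if m₂ b = g ∧ k f (m₂ b) (dec f (m₂ b) b c) = l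
            then (L' b)ᴴ * L' b else 0) = ∑ x, if (h f g x = c ∧ k f g x = κ ∧
              k f g (dec f g b c) = l) ∧ (m₁ a = f ∧ xs a g = x ∧ m₂ b = g) then
              eve Ψ (EA a) (FB b) else 0 := by
          intro a b
          rw [← hL, ← hL']
          rw [Finset.sum_eq_single (xs a g)]
          · by_cases h1 : m₁ a = f
            · subst h1
              by_cases h2 : m₂ b = g
              · subst h2
                by_cases h3 : h (m₁ a) (m₂ b) (xs a (m₂ b)) = c <;>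
                by_cases h4 : k (m₁ a) (m₂ b) (xs a (m₂ b)) = κ <;>
                by_cases h5 : k (m₁ a) (m₂ b) (dec (m₁ a) (m₂ b) b c) = l <;>
                simp [h3, h4, h5, eve_zero_left, eve_zero_right]
              · simp [h2, eve_zero_right]
            · simp [h1, eve_zero_left]
          · intro x _ hx
            simp [hx.symm]
          · simp
        simp only [e1]
        have e2 : ∀ (F : α → β → X → Matrix E E ℂ), ∑ a, ∑ b, ∑ x, F a b x =
            ∑ x, ∑ b, ∑ a, F a b x := by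
          intro F
          rw [Finset.sum_congr rfl fun a _ => Finset.sum_comm, Finset.sum_comm]
          exact Finset.sum_congr rfl fun x _ => Finset.sum_comm
        rw [e2]
        refine Finset.sum_congr rfl fun x _ => Finset.sum_congr rfl fun b _ => ?_
        by_cases h1 : h f g x = c ∧ k f g x = κ ∧ k f g (dec f g b c) = l
        · simp only [h1, and_self, true_and, if_true]
        · simp only [h1, false_and, if_false, Finset.sum_const_zero]

end proto

end Vale.Agent.P372
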