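import Mathlib
import Vale.Agent.P372.Official

open Matrix Filter Topology
open scoped ComplexOrder

namespace Vale.Agent.P372

/-- Two-party protocols with public classical communication. `K` is the set of keys; the last two
type arguments are (index sets of orthonormal bases of) the present local systems of Alice and Bob.
* `output P Q`: Alice measures the POVM `P`, Bob measures `Q`; the outcomes are their keys.
* `alice A' M R V next`: Alice applies the instrument with Kraus operators `V m r` to her system,
  broadcasts the outcome `m` and keeps a system `A'`; the protocol goes on with `next m`.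
* `bob`: the same with the roles exchanged. -/
inductive Protocol (K : Type) : Type → Type → Type 1
  | output {A B : Type} (P : K → Matrix A A ℂ) (Q : K → Matrix B B ℂ) : Protocol K A B
  | alice {A B : Type} (A' M R : Type) (_ : Fintype A') (_ : Fintype M) (_ : Fintype R)
      (V : M → R → Matrix A' A ℂ) (next : M → Protocol K A' B) : Protocol K A B
  | bob {A B : Type} (B' M R : Type) (_ : Fintype B') (_ : Fintype M) (_ : Fintype R)
      (V : M → R → Matrix B' B ℂ) (next : M → Protocol K A B') : Protocol K A B

namespace Protocol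

variable {K : Type}

open Classical in
/-- The normalisation conditions: the outputs are POVMs and the instruments are complete. -/
def Valid [Fintype K] : {A B : Type} → Protocol K A B → Prop
  | _, _, .output P Q =>
      ((∀ k, (P k).PosSemidef) ∧ ∑ k, P k = 1) ∧ ((∀ k, (Q k).PosSemidef) ∧ ∑ k, Q k = 1)
  | _, _, .alice _ _ _ _ _ _ V next => (∑ m, ∑ r, (V m r)ᴴ * V m r = 1) ∧ ∀ m, (next m).Valid
  | _, _, .bob _ _ _ _ _ _ V next => (∑ m, ∑ r, (V m r)ᴴ * V m r = 1) ∧ ∀ m, (next m).Valid

/-- The complete public transcripts. -/
def Transcript : {A B : Type} → Protocol K A B → Type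
  | _, _, .output _ _ => Unit
  | _, _, .alice _ M _ _ _ _ _ next => (m : M) × (next m).Transcript
  | _, _, .bob _ M _ _ _ _ _ next => (m : M) × (next m).Transcript

/-- There are finitely many transcripts. -/
instance instFintypeTranscript : {A B : Type} → (π : Protocol K A B) → Fintype π.Transcript
  | _, _, .output _ _ => (inferInstance : Fintype Unit)
  | _, _, .alice _ _ _ _ iM _ _ next =>
      @Sigma.instFintype _ _ (fun m => instFintypeTranscript (next m)) iM
  | _, _, .bob _ _ _ _ iM _ _ next =>
      @Sigma.instFintype _ _ (fun m => instFintypeTranscript (next m)) iM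

/-- Heisenberg picture: the effect on Alice's initial system of the event that the transcript is
`t` and Alice's key is `k` (for given transcript the joint effect is a product operator). -/
def effA : {A B : Type} → (π : Protocol K A B) → π.Transcript → K → Matrix A A ℂ
  | _, _, .output P _, _, k => P k
  | _, _, .alice _ _ _ _ _ _ V next, t, k => ∑ r, (V t.1 r)ᴴ * (next t.1).effA t.2 k * V t.1 r
  | _, _, .bob _ _ _ _ _ _ _ next, t, k => (next t.1).effA t.2 k

/-- The same for Bob. -/
def effB : {A B : Type} → (π : Protocol K A B) → π.Transcript → K → Matrix B B ℂ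
  | _, _, .output _ Q, _, k => Q k
  | _, _, .alice _ _ _ _ _ _ _ next, t, k => (next t.1).effB t.2 k
  | _, _, .bob _ _ _ _ _ _ V next, t, k => ∑ r, (V t.1 r)ᴴ * (next t.1).effB t.2 k * V t.1 r

end Protocol

variable {A B E : Type} [Fintype A] [DecidableEq A] [Fintype B] [DecidableEq B] [Fintype E]
  [DecidableEq E]

/-- The protocol `π`, run on the vector `Ψ`, has error at most `ε`: the final state of the two keys,
Eve's system and the transcript is `ε`-close in trace norm to a uniform shared key times `σ`. -/
def Protocol.ErrorLE {K : Type} [Fintype K] [DecidableEq K] (π : Protocol K A B)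
    (Ψ : Matrix (A × B) E ℂ) (ε : ℝ) : Prop :=
  ∃ σ : π.Transcript → Matrix E E ℂ, (∀ t, (σ t).PosSemidef) ∧ ∑ t, (σ t).trace = 1 ∧
    ∑ t, ∑ k, ∑ l, traceNorm (eve Ψ (π.effA t k) (π.effB t l) -
      if k = l then ((Fintype.card K : ℂ)⁻¹) • σ t else 0) ≤ ε

/-- The distillable key of the state of `AB` purified by `Ψ`, Eve holding `E`. -/
noncomputable def KD (Ψ : Matrix (A × B) E ℂ) : EReal :=
  sSup {R : EReal | ∃ (ℓ : ℕ → ℕ) (π : ∀ n, Protocol (Fin (ℓ n) → Bool) (Fin n → A) (Fin n → B))
    (ε : ℕ → ℝ), (∀ n, (π n).Valid) ∧ (∀ n, (π n).ErrorLE (copies n Ψ) (ε n)) ∧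
      Tendsto ε atTop (𝓝 0) ∧
      R = liminf (fun n => (((ℓ n : ℝ) / (n : ℝ) : ℝ) : EReal)) atTop}

end Vale.Agent.P372
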