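import Vale.Agent.P372.TraceNorm

open Matrix
open scoped ComplexOrder MatrixOrder

set_option linter.unusedSectionVars false

namespace Vale.Agent.P372

section avg

variable {X U : Type} [Fintype X] [DecidableEq X] [Fintype U] [DecidableEq U]

theorem sum_prod_fun (g : X → U → ℝ) : ∑ u : X → U, ∏ x, g x (u x) = ∏ x, ∑ v, g x v := by
  rw [Finset.prod_univ_sum]
  simp

/-- the uniform average over all functions -/
noncomputable def avg (F : (X → U) → ℝ) : ℝ := ∑ u : X → U, (∏ _x : X, (Fintype.card U : ℝ)⁻¹) * F u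

theorem avg_two [Nonempty U] {x x' : X} (hx : x ≠ x') (G H : U → ℝ) :
    avg (fun u : X → U => G (u x) * H (u x')) =
      ((Fintype.card U : ℝ)⁻¹ * ∑ v, G v) * ((Fintype.card U : ℝ)⁻¹ * ∑ v, H v) := by
  have h1 : ∀ u : X → U, (∏ _x : X, (Fintype.card U : ℝ)⁻¹) * (G (u x) * H (u x')) =
      ∏ z, ((Fintype.card U : ℝ)⁻¹ * (if z = x then G (u z) else if z = x' then H (u z) else 1)) := by
    intro u
    rw [Finset.prod_mul_distrib]
    congr 1
    rw [Finset.prod_eq_mul x x' hx]
    · simp [hx.symm]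
    · intro c _ hc
      simp [hc.1, hc.2]
    · intro h
      exact absurd (Finset.mem_univ _) h
    · intro h
      exact absurd (Finset.mem_univ _) h
  unfold avg
  simp only [h1]
  rw [sum_prod_fun (fun z v => (Fintype.card U : ℝ)⁻¹ *
    (if z = x then G v else if z = x' then H v else 1))]
  have hc : (Fintype.card U : ℝ) ≠ 0 := by
    exact_mod_cast Fintype.card_ne_zero
  rw [Finset.prod_eq_mul x x' hx]
  · simp [hx.symm, Finset.mul_sum]
  · intro c _ hc'
    simp [hc'.1, hc'.2, hc]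
  · intro h
    exact absurd (Finset.mem_univ _) h
  · intro h
    exact absurd (Finset.mem_univ _) h

theorem avg_const [Nonempty U] (a : ℝ) : avg (fun _ : X → U => a) = a := by
  have hc : (Fintype.card U : ℝ) ≠ 0 := by
    exact_mod_cast Fintype.card_ne_zero
  unfold avg
  rw [← Finset.sum_mul, sum_prod_fun (fun _ _ => (Fintype.card U : ℝ)⁻¹)]
  simp [hc]

theorem avg_mono {F G : (X → U) → ℝ} (h : ∀ u, F u ≤ G u) : avg F ≤ avg G := by
  unfold avg
  refine Finset.sum_le_sum fun u _ => mul_le_mul_of_nonneg_left (h u) ?_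
  exact Finset.prod_nonneg fun _ _ => by positivity

theorem avg_add (F G : (X → U) → ℝ) : avg (fun u => F u + G u) = avg F + avg G := by
  unfold avg
  simp only [mul_add, Finset.sum_add_distrib]

theorem avg_mul_left (a : ℝ) (F : (X → U) → ℝ) : avg (fun u => a * F u) = a * avg F := by
  unfold avg
  rw [Finset.mul_sum]
  exact Finset.sum_congr rfl fun u _ => by ring

theorem avg_sum {ι : Type} (s : Finset ι) (F : ι → (X → U) → ℝ) :
    avg (fun u => ∑ i ∈ s, F i u) = ∑ i ∈ s, avg (F i) := by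
  unfold avg
  rw [Finset.sum_comm]
  simp only [Finset.mul_sum]

theorem exists_le_avg [Nonempty U] (F : (X → U) → ℝ) : ∃ u, F u ≤ avg F := by
  by_contra hcon
  push Not at hcon
  have h0 : ∀ u : X → U, 0 < (∏ _x : X, (Fintype.card U : ℝ)⁻¹) := by
    intro u
    refine Finset.prod_pos fun _ _ => ?_
    have : 0 < (Fintype.card U : ℝ) := by exact_mod_cast Fintype.card_pos
    positivity
  have h1 : avg (fun _ : X → U => avg F) < avg F := by
    conv_rhs => unfold avg
    conv_lhs => unfold avg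
    refine Finset.sum_lt_sum_of_nonempty ⟨fun _ => Classical.arbitrary U, Finset.mem_univ _⟩ ?_
    intro u _
    exact mul_lt_mul_of_pos_left (hcon u) (h0 u)
  rw [avg_const] at h1
  exact lt_irrefl _ h1

theorem avg_sqrt_le [Nonempty U] {F : (X → U) → ℝ} (hF : ∀ u, 0 ≤ F u) :
    avg (fun u => √(F u)) ≤ √(avg F) := by
  have h0 : 0 ≤ (∏ _x : X, (Fintype.card U : ℝ)⁻¹) := Finset.prod_nonneg fun _ _ => by positivity
  have h := Real.sum_sqrt_mul_sqrt_le (Finset.univ : Finset (X → U))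
    (f := fun _ => ∏ _x : X, (Fintype.card U : ℝ)⁻¹)
    (g := fun u => (∏ _x : X, (Fintype.card U : ℝ)⁻¹) * F u)
    (fun _ => h0) (fun u => mul_nonneg h0 (hF u))
  have h1 : ∑ u : X → U, √(∏ _x : X, (Fintype.card U : ℝ)⁻¹) *
      √((∏ _x : X, (Fintype.card U : ℝ)⁻¹) * F u) = avg (fun u => √(F u)) := by
    unfold avg
    refine Finset.sum_congr rfl fun u _ => ?_
    rw [Real.sqrt_mul h0, ← mul_assoc, Real.mul_self_sqrt h0]
  have h2 : ∑ _u : X → U, (∏ _x : X, (Fintype.card U : ℝ)⁻¹) = 1 := by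
    have := avg_const (X := X) (U := U) 1
    unfold avg at this
    simp only [mul_one] at this
    exact this
  rw [h1, h2, Real.sqrt_one, one_mul] at h
  exact h

end avg

section hash

variable {X Y K E : Type} [Fintype X] [DecidableEq X] [Fintype Y] [DecidableEq Y] [Fintype K]
  [DecidableEq K] [Fintype E] [DecidableEq E]

theorem exists_decoder [Nonempty X] {S : ℕ} (P : X → Y → ℝ) (hP : ∀ x y, 0 ≤ P x y)
    (h : X → Fin S) :
    ∃ dec : Y → Fin S → X, ∀ x y, (if dec y (h x) ≠ x then P x y else 0) ≤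
      ∑ x' ∈ Finset.univ.erase x, if h x = h x' then √(P x y) * √(P x' y) else 0 := by
  have key : ∀ y c, ∃ z, ∀ x, h x = c → (h z = c ∧ P x y ≤ P z y) := by
    intro y c
    by_cases hne : (Finset.univ.filter fun x => h x = c).Nonempty
    · obtain ⟨z, hz, hmax⟩ := Finset.exists_max_image _ (fun x => P x y) hne
      refine ⟨z, fun x hx => ⟨(Finset.mem_filter.mp hz).2, hmax x ?_⟩⟩
      exact Finset.mem_filter.mpr ⟨Finset.mem_univ _, hx⟩
    · refine ⟨Classical.arbitrary X, fun x hx => ?_⟩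
      exact absurd ⟨x, Finset.mem_filter.mpr ⟨Finset.mem_univ _, hx⟩⟩ hne
  choose dec hdec using key
  refine ⟨dec, fun x y => ?_⟩
  have hnn : ∀ x' ∈ Finset.univ.erase x,
      0 ≤ if h x = h x' then √(P x y) * √(P x' y) else 0 := by
    intro x' _
    split_ifs
    · positivity
    · exact le_refl _
  by_cases hx : dec y (h x) ≠ x
  · rw [if_pos hx]
    obtain ⟨h1, h2⟩ := hdec y (h x) x rfl
    have hmem : dec y (h x) ∈ Finset.univ.erase x := Finset.mem_erase.mpr ⟨hx, Finset.mem_univ _⟩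
    refine le_trans ?_ (Finset.single_le_sum hnn hmem)
    rw [if_pos h1.symm]
    calc P x y = √(P x y) * √(P x y) := (Real.mul_self_sqrt (hP x y)).symm
      _ ≤ √(P x y) * √(P (dec y (h x)) y) :=
        mul_le_mul_of_nonneg_left (Real.sqrt_le_sqrt h2) (Real.sqrt_nonneg _)
  · rw [if_neg hx]
    exact Finset.sum_nonneg hnn

/-- the centred indicator -/
noncomputable def cf {S : ℕ} (c : Fin S) (κ : K) (v : Fin S × K) : ℝ :=
  if v.1 = c then (if v.2 = κ then 1 else 0) - (Fintype.card K : ℝ)⁻¹ else 0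

theorem cf_sum [Nonempty K] {S : ℕ} (c : Fin S) (κ : K) : ∑ v, cf c κ v = 0 := by
  have hc : (Fintype.card K : ℝ) ≠ 0 := by
    exact_mod_cast Fintype.card_ne_zero
  rw [Fintype.sum_prod_type]
  rw [Finset.sum_eq_single c]
  · simp only [cf, if_true, Finset.sum_sub_distrib]
    simp [hc]
  · intro b _ hb
    simp [cf, hb]
  · simp

theorem cf_sq_sum [Nonempty K] {S : ℕ} (v : Fin S × K) : ∑ c, ∑ κ, cf c κ v * cf c κ v ≤ 1 := by
  have hc : (Fintype.card K : ℝ) ≠ 0 := by
    exact_mod_cast Fintype.card_ne_zero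
  rw [Finset.sum_eq_single v.1]
  · have : ∀ κ, cf v.1 κ v * cf v.1 κ v = (if v.2 = κ then 1 - 2 * (Fintype.card K : ℝ)⁻¹ else 0) +
        (Fintype.card K : ℝ)⁻¹ * (Fintype.card K : ℝ)⁻¹ := by
      intro κ
      by_cases h : v.2 = κ
      · simp [cf, h]
        ring
      · simp [cf, h]
    simp only [this, Finset.sum_add_distrib, Finset.sum_ite_eq, Finset.mem_univ, if_true,
      Finset.sum_const, Finset.card_univ, nsmul_eq_mul]
    have h2 : (Fintype.card K : ℝ) * ((Fintype.card K : ℝ)⁻¹ * (Fintype.card K : ℝ)⁻¹) =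
      (Fintype.card K : ℝ)⁻¹ := by field_simp
    rw [h2]
    have : 0 < (Fintype.card K : ℝ)⁻¹ := by
      have : 0 < (Fintype.card K : ℝ) := by exact_mod_cast Fintype.card_pos
      positivity
    linarith
  · intro b _ hb
    simp [cf, hb.symm]
  · simp

theorem trace_quad (a : X → ℝ) (D : X → Matrix E E ℂ) :
    ((∑ x, (a x : ℂ) • D x)ᴴ * (∑ x, (a x : ℂ) • D x)).trace.re =
      ∑ x, ∑ x', a x * a x' * ((D x)ᴴ * D x').trace.re := by
  rw [conjTranspose_sum, Finset.sum_mul, trace_sum, Complex.re_sum]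
  refine Finset.sum_congr rfl fun x _ => ?_
  rw [Finset.mul_sum, trace_sum, Complex.re_sum]
  refine Finset.sum_congr rfl fun x' _ => ?_
  rw [conjTranspose_smul, Matrix.smul_mul, Matrix.mul_smul, trace_smul, trace_smul]
  simp [mul_assoc]

theorem avg_quad_le [Nonempty K] {S : ℕ} [NeZero S] (T : X → X → ℝ) (hT : ∀ x, 0 ≤ T x x) :
    avg (fun u : X → Fin S × K => ∑ c, ∑ κ, ∑ x, ∑ x', cf c κ (u x) * cf c κ (u x') * T x x') ≤
      ∑ x, T x x := by
  have h2 : ∀ (c : Fin S) (κ : K) (x : X),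
      avg (fun u : X → Fin S × K => ∑ x', cf c κ (u x) * cf c κ (u x') * T x x') =
        T x x * avg (fun u : X → Fin S × K => cf c κ (u x) * cf c κ (u x)) := by
    intro c κ x
    rw [avg_sum, Finset.sum_eq_single x]
    · rw [← avg_mul_left]
      congr 1
      funext u
      ring
    · intro x' _ hx'
      have : avg (fun u : X → Fin S × K => cf c κ (u x) * cf c κ (u x') * T x x') =
          T x x' * avg (fun u : X → Fin S × K => cf c κ (u x) * cf c κ (u x')) := by
        rw [← avg_mul_left]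
        congr 1
        funext u
        ring
      rw [this, avg_two hx'.symm, cf_sum]
      simp
    · simp
  have h1 : avg (fun u : X → Fin S × K =>
      ∑ c, ∑ κ, ∑ x, ∑ x', cf c κ (u x) * cf c κ (u x') * T x x') =
      ∑ x, T x x * avg (fun u : X → Fin S × K => ∑ c, ∑ κ, cf c κ (u x) * cf c κ (u x)) := by
    rw [avg_sum]
    have h3 : ∀ c : Fin S, avg (fun u : X → Fin S × K =>
        ∑ κ, ∑ x, ∑ x', cf c κ (u x) * cf c κ (u x') * T x x') =
        ∑ x, ∑ κ, T x x * avg (fun u : X → Fin S × K => cf c κ (u x) * cf c κ (u x)) := by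
      intro c
      rw [avg_sum]
      have h4 : ∀ κ : K, avg (fun u : X → Fin S × K =>
        ∑ x, ∑ x', cf c κ (u x) * cf c κ (u x') * T x x') =
        ∑ x, T x x * avg (fun u : X → Fin S × K => cf c κ (u x) * cf c κ (u x)) := by
        intro κ
        rw [avg_sum]
        exact Finset.sum_congr rfl fun x _ => h2 c κ x
      rw [Finset.sum_congr rfl fun κ _ => h4 κ, Finset.sum_comm]
    rw [Finset.sum_congr rfl fun c _ => h3 c, Finset.sum_comm]
    refine Finset.sum_congr rfl fun x _ => ?_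
    rw [avg_sum, Finset.mul_sum]
    refine Finset.sum_congr rfl fun c _ => ?_
    rw [avg_sum, Finset.mul_sum]
  rw [h1]
  refine Finset.sum_le_sum fun x _ => ?_
  have h5 : avg (fun u : X → Fin S × K => ∑ c, ∑ κ, cf c κ (u x) * cf c κ (u x)) ≤
      avg (fun _ : X → Fin S × K => 1) := avg_mono fun u => cf_sq_sum (u x)
  rw [avg_const] at h5
  calc _ ≤ T x x * 1 := mul_le_mul_of_nonneg_left h5 (hT x)
    _ = T x x := mul_one _

theorem avg_coll [Nonempty K] {S : ℕ} [NeZero S] {x x' : X} (hx : x ≠ x') :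
    avg (fun u : X → Fin S × K => if (u x).1 = (u x').1 then (1 : ℝ) else 0) = (S : ℝ)⁻¹ := by
  have hc : (Fintype.card K : ℝ) ≠ 0 := by
    exact_mod_cast Fintype.card_ne_zero
  have hS : (S : ℝ) ≠ 0 := by
    exact_mod_cast NeZero.ne S
  have h1 : ∀ u : X → Fin S × K, (if (u x).1 = (u x').1 then (1 : ℝ) else 0) =
      ∑ c : Fin S, (if (u x).1 = c then (1 : ℝ) else 0) * (if (u x').1 = c then (1 : ℝ) else 0) := by
    intro u
    simp [eq_comm]
  simp only [h1]
  rw [avg_sum]
  have h2 : ∀ c : Fin S, avg (fun u : X → Fin S × K => (if (u x).1 = c then (1 : ℝ) else 0) *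
      (if (u x').1 = c then (1 : ℝ) else 0)) = (S : ℝ)⁻¹ * (S : ℝ)⁻¹ := by
    intro c
    rw [avg_two hx (fun v : Fin S × K => if v.1 = c then (1 : ℝ) else 0)
      (fun v : Fin S × K => if v.1 = c then (1 : ℝ) else 0)]
    have h3 : ∑ v : Fin S × K, (if v.1 = c then (1 : ℝ) else 0) = Fintype.card K := by
      rw [Fintype.sum_prod_type, Finset.sum_eq_single c]
      · simp
      · intro b _ hb
        simp [hb]
      · simp
    rw [h3, Fintype.card_prod, Fintype.card_fin]
    push_cast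
    field_simp
  rw [Finset.sum_congr rfl fun c _ => h2 c]
  simp [hS]

theorem traceNorm_smul_psd (c : ℝ) {X : Matrix E E ℂ} (hX : X.PosSemidef) :
    traceNorm ((c : ℂ) • X) ≤ |c| * X.trace.re := by
  obtain ⟨W, hW, h⟩ := traceNorm_exists ((c : ℂ) • X)
  have h1 := norm_trace_mul_le hW X
  rw [traceNorm_of_posSemidef hX] at h1
  rw [Matrix.mul_smul, trace_smul] at h
  have h2 : traceNorm ((c : ℂ) • X) = ‖(traceNorm ((c : ℂ) • X) : ℂ)‖ := by
    rw [Complex.norm_real, Real.norm_of_nonneg (traceNorm_nonneg _)]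
  rw [h2, ← h, norm_smul, Complex.norm_real, Real.norm_eq_abs]
  exact mul_le_mul_of_nonneg_left h1 (abs_nonneg _)

/-- error part -/
theorem err_part {S : ℕ} (Ω : X → Y → Matrix E E ℂ) (hΩ : ∀ x y, (Ω x y).PosSemidef)
    (h : X → Fin S) (k : X → K) (dec : Y → Fin S → X) :
    ∑ c, ∑ κ, ∑ l, traceNorm ((∑ x, ∑ y, if h x = c ∧ k x = κ ∧ k (dec y c) = l then Ω x y else 0) -
      if κ = l then (∑ x, ∑ y, if h x = c ∧ k x = κ then Ω x y else 0) else 0) ≤
      2 * ∑ x, ∑ y, if dec y (h x) ≠ x then (Ω x y).trace.re else 0 := by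
  have hnn : ∀ x y, 0 ≤ (Ω x y).trace.re := fun x y =>
    (Complex.le_def.mp (hΩ x y).trace_nonneg).1
  have h1 : ∀ c κ l, ((∑ x, ∑ y, if h x = c ∧ k x = κ ∧ k (dec y c) = l then Ω x y else 0) -
      if κ = l then (∑ x, ∑ y, if h x = c ∧ k x = κ then Ω x y else 0) else 0) =
      ∑ x, ∑ y, (((if h x = c ∧ k x = κ then
        ((if k (dec y c) = l then (1 : ℝ) else 0) - (if κ = l then 1 else 0)) else 0 : ℝ)) : ℂ) •
        Ω x y := by
    intro c κ l
    by_cases hl : κ = l
    · simp only [hl, if_true]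
      rw [← Finset.sum_sub_distrib]
      refine Finset.sum_congr rfl fun x _ => ?_
      rw [← Finset.sum_sub_distrib]
      refine Finset.sum_congr rfl fun y _ => ?_
      by_cases h2 : h x = c <;> by_cases h3 : k x = l <;> by_cases h4 : k (dec y c) = l <;>
        simp [h2, h3, h4]
    · simp only [hl, if_false, sub_zero]
      refine Finset.sum_congr rfl fun x _ => ?_
      refine Finset.sum_congr rfl fun y _ => ?_
      by_cases h2 : h x = c <;> by_cases h3 : k x = κ <;> by_cases h4 : k (dec y c) = l <;>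
        simp [h2, h3, h4]
  have h2 : ∀ c κ l, traceNorm ((∑ x, ∑ y, if h x = c ∧ k x = κ ∧ k (dec y c) = l then Ω x y else 0) -
      if κ = l then (∑ x, ∑ y, if h x = c ∧ k x = κ then Ω x y else 0) else 0) ≤
      ∑ x, ∑ y, |(if h x = c ∧ k x = κ then
        ((if k (dec y c) = l then (1 : ℝ) else 0) - (if κ = l then 1 else 0)) else 0 : ℝ)| *
        (Ω x y).trace.re := by
    intro c κ l
    rw [h1]
    refine le_trans (traceNorm_sum_le _ _) (Finset.sum_le_sum fun x _ => ?_)
    refine le_trans (traceNorm_sum_le _ _) (Finset.sum_le_sum fun y _ => ?_)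
    exact traceNorm_smul_psd _ (hΩ x y)
  have h3 : ∀ x y, ∑ c, ∑ κ, ∑ l, |(if h x = c ∧ k x = κ then
        ((if k (dec y c) = l then (1 : ℝ) else 0) - (if κ = l then 1 else 0)) else 0 : ℝ)| ≤
        2 * (if dec y (h x) ≠ x then 1 else 0) := by
    intro x y
    rw [Finset.sum_eq_single (h x), Finset.sum_eq_single (k x)]
    · simp only [and_self, if_true]
      by_cases hd : dec y (h x) = x
      · simp [hd]
      · rw [if_pos hd, mul_one]
        calc _ ≤ ∑ l, ((if k (dec y (h x)) = l then (1 : ℝ) else 0) + (if k x = l then 1 else 0)) := by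
              refine Finset.sum_le_sum fun l _ => ?_
              refine le_trans (abs_sub _ _) ?_
              apply le_of_eq
              congr 1 <;> split_ifs <;> simp
          _ = 2 := by
            rw [Finset.sum_add_distrib]
            simp
            norm_num
    · intro κ _ hκ
      simp [hκ.symm]
    · simp
    · intro c _ hc
      simp [hc.symm]
    · simp
  calc _ ≤ ∑ c, ∑ κ, ∑ l, ∑ x, ∑ y, |(if h x = c ∧ k x = κ then
        ((if k (dec y c) = l then (1 : ℝ) else 0) - (if κ = l then 1 else 0)) else 0 : ℝ)| *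
        (Ω x y).trace.re := by
        refine Finset.sum_le_sum fun c _ => Finset.sum_le_sum fun κ _ => Finset.sum_le_sum fun l _ => h2 c κ l
    _ = ∑ x, ∑ y, (∑ c, ∑ κ, ∑ l, |(if h x = c ∧ k x = κ then
        ((if k (dec y c) = l then (1 : ℝ) else 0) - (if κ = l then 1 else 0)) else 0 : ℝ)|) *
        (Ω x y).trace.re := by
        simp only [Finset.sum_mul]
        have e1 : ∀ (F : Fin S → K → K → X → Y → ℝ), ∑ c, ∑ κ, ∑ l, ∑ x, ∑ y, F c κ l x y =
            ∑ x, ∑ y, ∑ c, ∑ κ, ∑ l, F c κ l x y := by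
          intro F
          have : ∀ (G : Fin S × K × K → X × Y → ℝ), ∑ p, ∑ q, G p q = ∑ q, ∑ p, G p q :=
            fun G => Finset.sum_comm
          have := this (fun p q => F p.1 p.2.1 p.2.2 q.1 q.2)
          simpa only [Fintype.sum_prod_type] using this
        exact e1 _
    _ ≤ ∑ x, ∑ y, (2 * (if dec y (h x) ≠ x then 1 else 0)) * (Ω x y).trace.re := by
        refine Finset.sum_le_sum fun x _ => Finset.sum_le_sum fun y _ => ?_
        exact mul_le_mul_of_nonneg_right (h3 x y) (hnn x y)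
    _ = _ := by
        simp only [Finset.mul_sum]
        refine Finset.sum_congr rfl fun x _ => Finset.sum_congr rfl fun y _ => ?_
        split_ifs <;> simp

theorem sec_term (P : Matrix E E ℂ) (hP : P.PosSemidef)
    (D : X → Matrix E E ℂ) (a : X → ℝ) :
    traceNorm (∑ x, (a x : ℂ) • (P * D x * P)) ≤
      √(((P*P)*(P*P)).trace.re) *
      √(∑ x, ∑ x', a x * a x' * ((D x)ᴴ * D x').trace.re) := by
  have : (∑ x, (a x : ℂ) • (P * D x * P)) = P * (∑ x, (a x : ℂ) • D x) * P := by
    rw [Matrix.mul_sum, Matrix.sum_mul]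
    refine Finset.sum_congr rfl fun x _ => ?_
    rw [Matrix.mul_smul, Matrix.smul_mul]
  rw [this, ← trace_quad]
  exact traceNorm_conj_le hP _

theorem quad_nonneg (D : X → Matrix E E ℂ) (a : X → ℝ) :
    0 ≤ ∑ x, ∑ x', a x * a x' * ((D x)ᴴ * D x').trace.re := by
  rw [← trace_quad]
  exact (Complex.le_def.mp (posSemidef_conjTranspose_mul_self _).trace_nonneg).1

theorem sum_sqrt_le {I : Type} [Fintype I] (Z : I → ℝ) (hZ : ∀ i, 0 ≤ Z i) :
    ∑ i, √(Z i) ≤ √(Fintype.card I) * √(∑ i, Z i) := by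
  have h := Real.sum_sqrt_mul_sqrt_le (Finset.univ : Finset I) (f := fun _ => 1)
    (g := Z) (fun _ => zero_le_one) hZ
  simpa using h

/-- secrecy part -/
theorem sec_part [Nonempty K] {S : ℕ} (P : Matrix E E ℂ) (hP : P.PosSemidef)
    (D : X → Matrix E E ℂ) (u : X → Fin S × K) :
    ∑ c : Fin S, ∑ κ : K, traceNorm (∑ x, ((cf c κ (u x) : ℝ) : ℂ) • (P * D x * P)) ≤
      √(((P*P)*(P*P)).trace.re) * (√(S * Fintype.card K) *
      √(∑ c : Fin S, ∑ κ : K, ∑ x, ∑ x',
        cf c κ (u x) * cf c κ (u x') * ((D x)ᴴ * D x').trace.re)) := by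
  refine le_trans (Finset.sum_le_sum fun c _ => Finset.sum_le_sum fun κ _ =>
    sec_term P hP D (fun x => cf c κ (u x))) ?_
  simp only [← Finset.mul_sum]
  refine mul_le_mul_of_nonneg_left ?_ (Real.sqrt_nonneg _)
  have h := sum_sqrt_le (I := Fin S × K)
    (fun p => ∑ x, ∑ x', cf p.1 p.2 (u x) * cf p.1 p.2 (u x') * ((D x)ᴴ * D x').trace.re)
    (fun p => quad_nonneg D (fun x => cf p.1 p.2 (u x)))
  rw [Fintype.sum_prod_type, Fintype.sum_prod_type, Fintype.card_prod, Fintype.card_fin] at h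
  push_cast at h
  exact h

theorem avg_err [Nonempty K] {S : ℕ} [NeZero S] (q : X → Y → ℝ) :
    avg (fun u : X → Fin S × K => ∑ x, ∑ y, ∑ x' ∈ Finset.univ.erase x,
      if (u x).1 = (u x').1 then √(q x y) * √(q x' y) else 0) ≤
      (S : ℝ)⁻¹ * ∑ y, (∑ x, √(q x y)) ^ 2 := by
  have h1 : avg (fun u : X → Fin S × K => ∑ x, ∑ y, ∑ x' ∈ Finset.univ.erase x,
      if (u x).1 = (u x').1 then √(q x y) * √(q x' y) else 0) =
      ∑ x, ∑ y, ∑ x' ∈ Finset.univ.erase x, (√(q x y) * √(q x' y)) * (S : ℝ)⁻¹ := by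
    rw [avg_sum]
    refine Finset.sum_congr rfl fun x _ => ?_
    rw [avg_sum]
    refine Finset.sum_congr rfl fun y _ => ?_
    rw [avg_sum]
    refine Finset.sum_congr rfl fun x' hx' => ?_
    rw [← avg_coll (K := K) (Finset.ne_of_mem_erase hx').symm, ← avg_mul_left]
    congr 1
    funext u
    split_ifs <;> simp
  rw [h1]
  calc _ ≤ ∑ x, ∑ y, ∑ x', (√(q x y) * √(q x' y)) * (S : ℝ)⁻¹ := by
        refine Finset.sum_le_sum fun x _ => Finset.sum_le_sum fun y _ => ?_
        refine Finset.sum_le_sum_of_subset_of_nonneg (Finset.subset_univ _) fun x' _ _ => ?_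
        positivity
    _ = _ := by
        rw [Finset.sum_comm, Finset.mul_sum]
        refine Finset.sum_congr rfl fun y _ => ?_
        rw [sq, Finset.sum_mul_sum, Finset.mul_sum]
        refine Finset.sum_congr rfl fun x _ => ?_
        rw [Finset.mul_sum]
        refine Finset.sum_congr rfl fun x' _ => ?_
        ring

theorem hash_exists [Nonempty X] [Nonempty K] (S : ℕ) (hS : 0 < S)
    (Ω : X → Y → Matrix E E ℂ) (hΩ : ∀ x y, (Ω x y).PosSemidef)
    (P : Matrix E E ℂ) (hP : P.PosSemidef) (D : X → Matrix E E ℂ)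
    (hD : ∀ x, ∑ y, Ω x y = P * D x * P) :
    ∃ (h : X → Fin S) (k : X → K) (dec : Y → Fin S → X),
      ∑ c, ∑ κ, ∑ l, traceNorm ((∑ x, ∑ y, if h x = c ∧ k x = κ ∧ k (dec y c) = l then Ω x y else 0)
        - if κ = l then ((Fintype.card K : ℂ)⁻¹) • ∑ x, ∑ y, (if h x = c then Ω x y else 0) else 0)
      ≤ 2 * ((S : ℝ)⁻¹ * ∑ y, (∑ x, √((Ω x y).trace.re)) ^ 2) +
        √(((P*P)*(P*P)).trace.re) * (√(S * Fintype.card K) *
        √(∑ x, ((D x)ᴴ * D x).trace.re)) := by
  haveI : NeZero S := ⟨hS.ne'⟩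
  have hnn : ∀ x y, 0 ≤ (Ω x y).trace.re := fun x y =>
    (Complex.le_def.mp (hΩ x y).trace_nonneg).1
  obtain ⟨u, hu⟩ := exists_le_avg (fun u : X → Fin S × K =>
    2 * (∑ x, ∑ y, ∑ x' ∈ Finset.univ.erase x,
      if (u x).1 = (u x').1 then √((Ω x y).trace.re) * √((Ω x' y).trace.re) else 0) +
    √(((P*P)*(P*P)).trace.re) * (√(S * Fintype.card K) *
      √(∑ c : Fin S, ∑ κ : K, ∑ x, ∑ x',
        cf c κ (u x) * cf c κ (u x') * ((D x)ᴴ * D x').trace.re)))
  obtain ⟨dec, hdec⟩ := exists_decoder (fun x y => (Ω x y).trace.re) hnn (fun x => (u x).1)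
  refine ⟨fun x => (u x).1, fun x => (u x).2, dec, ?_⟩
  have hA : avg (fun u : X → Fin S × K =>
    2 * (∑ x, ∑ y, ∑ x' ∈ Finset.univ.erase x,
      if (u x).1 = (u x').1 then √((Ω x y).trace.re) * √((Ω x' y).trace.re) else 0) +
    √(((P*P)*(P*P)).trace.re) * (√(S * Fintype.card K) *
      √(∑ c : Fin S, ∑ κ : K, ∑ x, ∑ x',
        cf c κ (u x) * cf c κ (u x') * ((D x)ᴴ * D x').trace.re))) ≤
      2 * ((S : ℝ)⁻¹ * ∑ y, (∑ x, √((Ω x y).trace.re)) ^ 2) +
        √(((P*P)*(P*P)).trace.re) * (√(S * Fintype.card K) *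
        √(∑ x, ((D x)ᴴ * D x).trace.re)) := by
    rw [avg_add, avg_mul_left, avg_mul_left, avg_mul_left]
    refine add_le_add (mul_le_mul_of_nonneg_left (avg_err _) (by norm_num)) ?_
    refine mul_le_mul_of_nonneg_left (mul_le_mul_of_nonneg_left ?_ (Real.sqrt_nonneg _))
      (Real.sqrt_nonneg _)
    refine le_trans (avg_sqrt_le fun u => ?_) (Real.sqrt_le_sqrt (avg_quad_le _ fun x => ?_))
    · exact Finset.sum_nonneg fun c _ => Finset.sum_nonneg fun κ _ => quad_nonneg D _
    · exact (Complex.le_def.mp (posSemidef_conjTranspose_mul_self _).trace_nonneg).1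
  refine le_trans ?_ (le_trans hu hA)
  have hErr := err_part Ω hΩ (fun x => (u x).1) (fun x => (u x).2) dec
  have hSec := sec_part P hP D u
  have hErr2 : ∑ x, ∑ y, (if dec y (u x).1 ≠ x then (Ω x y).trace.re else 0) ≤
      ∑ x, ∑ y, ∑ x' ∈ Finset.univ.erase x,
      if (u x).1 = (u x').1 then √((Ω x y).trace.re) * √((Ω x' y).trace.re) else 0 :=
    Finset.sum_le_sum fun x _ => Finset.sum_le_sum fun y _ => hdec x y
  have hsplit : ∀ (c : Fin S) (κ l : K), traceNorm ((∑ x, ∑ y,
        if (u x).1 = c ∧ (u x).2 = κ ∧ (u (dec y c)).2 = l then Ω x y else 0)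
        - if κ = l then ((Fintype.card K : ℂ)⁻¹) • ∑ x, ∑ y, (if (u x).1 = c then Ω x y else 0)
          else 0) ≤
      traceNorm ((∑ x, ∑ y, if (u x).1 = c ∧ (u x).2 = κ ∧ (u (dec y c)).2 = l then Ω x y else 0) -
      if κ = l then (∑ x, ∑ y, if (u x).1 = c ∧ (u x).2 = κ then Ω x y else 0) else 0) +
      if κ = l then traceNorm (∑ x, ((cf c κ (u x) : ℝ) : ℂ) • (P * D x * P)) else 0 := by
    intro c κ l
    by_cases hl : κ = l
    · simp only [hl, if_true]
      have e1 : (∑ x, ((cf c l (u x) : ℝ) : ℂ) • (P * D x * P)) =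
          (∑ x, ∑ y, if (u x).1 = c ∧ (u x).2 = l then Ω x y else 0) -
          ((Fintype.card K : ℂ)⁻¹) • ∑ x, ∑ y, (if (u x).1 = c then Ω x y else 0) := by
        rw [Finset.smul_sum, ← Finset.sum_sub_distrib]
        refine Finset.sum_congr rfl fun x _ => ?_
        rw [← hD x, Finset.smul_sum, Finset.smul_sum, ← Finset.sum_sub_distrib]
        refine Finset.sum_congr rfl fun y _ => ?_
        by_cases h2 : (u x).1 = c <;> by_cases h3 : (u x).2 = l <;> simp [cf, h2, h3, sub_smul]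
      rw [e1]
      refine le_trans (le_of_eq ?_) (traceNorm_add_le _ _)
      congr 1
      abel
    · simp only [hl, if_false, sub_zero, add_zero]
      exact le_refl _
  refine le_trans (Finset.sum_le_sum fun c _ => Finset.sum_le_sum fun κ _ =>
    Finset.sum_le_sum fun l _ => hsplit c κ l) ?_
  simp only [Finset.sum_add_distrib, Finset.sum_ite_eq, Finset.mem_univ, if_true]
  refine add_le_add (le_trans hErr (mul_le_mul_of_nonneg_left hErr2 (by norm_num))) hSec

end hash

end Vale.Agent.P372
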