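import Vale.Agent.P372.Block

open Matrix Filter Topology
open scoped ComplexOrder MatrixOrder

set_option linter.unusedSectionVars false

namespace Vale.Agent.P372

variable {A B E : Type} [Fintype A] [DecidableEq A] [Fintype B] [DecidableEq B] [Fintype E]
  [DecidableEq E]

theorem exists_root_lt {q : ℝ} (h0 : 0 ≤ q) (h1 : q < 1) :
    ∃ c : ℝ, 1 < c ∧ c * q < 1 ∧ ∃ m : ℕ, 0 < m ∧ 2 ≤ c ^ (2 * m) := by
  obtain ⟨c, hc1, hc2⟩ : ∃ c : ℝ, 1 < c ∧ c * q < 1 := by
    refine ⟨2 / (1 + q), ?_, ?_⟩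
    · rw [lt_div_iff₀ (by linarith)]
      linarith
    · rw [div_mul_eq_mul_div, div_lt_one (by linarith)]
      linarith
  refine ⟨c, hc1, hc2, ?_⟩
  obtain ⟨m, hm⟩ := pow_unbounded_of_one_lt 2 hc1
  refine ⟨m + 1, Nat.succ_pos _, ?_⟩
  refine le_trans hm.le (pow_le_pow_right₀ hc1.le ?_)
  omega

theorem kd_pos_of_rate (Ψ : Matrix (A × B) E ℂ) {q₁ q₂ : ℝ} (h₁ : 0 ≤ q₁) (h₁' : q₁ < 1)
    (h₂ : 0 ≤ q₂) (h₂' : q₂ < 1)
    (H : ∀ N ℓ : ℕ, ∃ π : Protocol (Fin ℓ → Bool) (Fin N → A) (Fin N → B), π.Valid ∧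
      π.ErrorLE (copies N Ψ) (2 * q₁ ^ N + √(2 * Fintype.card (Fin ℓ → Bool)) * q₂ ^ N)) :
    0 < KD Ψ := by
  obtain ⟨c, hc1, hc2, m, hm, hcm⟩ := exists_root_lt h₂ h₂'
  choose π hπ hπ' using fun N : ℕ => H N (N / m)
  have hc0 : 0 ≤ c := by linarith
  have hlim : Tendsto (fun N : ℕ => 2 * q₁ ^ N +
      √(2 * Fintype.card (Fin (N / m) → Bool)) * q₂ ^ N) atTop (𝓝 0) := by
    have hl1 : Tendsto (fun N : ℕ => 2 * q₁ ^ N + √2 * (c * q₂) ^ N) atTop (𝓝 0) := by
      have e1 := (tendsto_pow_atTop_nhds_zero_of_lt_one h₁ h₁').const_mul 2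
      have e2 := (tendsto_pow_atTop_nhds_zero_of_lt_one (mul_nonneg hc0 h₂) hc2).const_mul (√2)
      simpa using e1.add e2
    refine squeeze_zero (fun N => ?_) (fun N => ?_) hl1
    · positivity
    · refine add_le_add le_rfl ?_
      rw [mul_pow, ← mul_assoc]
      refine mul_le_mul_of_nonneg_right ?_ (pow_nonneg h₂ _)
      rw [← Real.sqrt_sq (pow_nonneg hc0 N), ← Real.sqrt_mul (by norm_num)]
      refine Real.sqrt_le_sqrt ?_
      refine mul_le_mul_of_nonneg_left ?_ (by norm_num)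
      simp only [Fintype.card_pi, Fintype.card_bool, Finset.prod_const, Finset.card_univ,
        Fintype.card_fin]
      push_cast
      calc (2 : ℝ) ^ (N / m) ≤ (c ^ (2 * m)) ^ (N / m) :=
            pow_le_pow_left₀ (by norm_num) hcm _
        _ = c ^ (2 * m * (N / m)) := (pow_mul _ _ _).symm
        _ ≤ c ^ (2 * N) := by
            refine pow_le_pow_right₀ hc1.le ?_
            have := Nat.mul_div_le N m
            calc 2 * m * (N / m) = 2 * (m * (N / m)) := by ring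
              _ ≤ 2 * N := Nat.mul_le_mul_left _ this
        _ = (c ^ N) ^ 2 := by ring
  have hrate : ((1 / (2 * m) : ℝ) : EReal) ≤
      liminf (fun n : ℕ => ((((n / m : ℕ) : ℝ) / (n : ℝ) : ℝ) : EReal)) atTop := by
    refine le_liminf_of_le (by isBoundedDefault) ?_
    filter_upwards [eventually_ge_atTop m] with n hn
    rw [EReal.coe_le_coe_iff]
    have hm' : (0 : ℝ) < m := by exact_mod_cast hm
    have hn' : (0 : ℝ) < n := by exact_mod_cast lt_of_lt_of_le hm hn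
    rw [div_le_div_iff₀ (by positivity) hn']
    have h3 : n < 2 * m * (n / m) + 1 := by
      have h4 := Nat.div_add_mod n m
      have h5 := Nat.mod_lt n hm
      have h6 : 1 ≤ n / m := (Nat.one_le_div_iff hm).mpr hn
      nlinarith
    have h7 : n ≤ (n / m) * (2 * m) := by
      have : 2 * m * (n / m) = (n / m) * (2 * m) := by ring
      omega
    rw [one_mul]
    exact_mod_cast h7
  refine lt_of_lt_of_le ?_ (le_trans hrate (le_sSup ⟨fun n => n / m, π, _, hπ, hπ', hlim, rfl⟩))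
  have hm' : (0 : ℝ) < m := by exact_mod_cast hm
  have : (0 : ℝ) < 1 / (2 * m) := by positivity
  exact_mod_cast this

end Vale.Agent.P372
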