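import Vale.Agent.P372.TraceNorm

/-! The kernel criterion for positive distillable key. -/

open Matrix Kronecker
open scoped ComplexOrder

namespace Vale.Agent.P372

variable {A B E : Type} [Fintype A] [DecidableEq A] [Fintype B] [DecidableEq B] [Fintype E]
  [DecidableEq E]

/-- The statement of the one-way distillation theorem `block_pos` for the vector `Ψ`, used as a
hypothesis in this file (it is proved in `Core.lean`). -/
def BlockPosStatement (Ψ : Matrix (A × B) E ℂ) : Prop :=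
  ∀ (Y : Type) [Fintype Y] [DecidableEq Y],
    ∀ (EA : Option Bool → Matrix A A ℂ), (∀ α, (EA α).PosSemidef) → (∑ α, EA α = 1) →
    ∀ (FB : Option Y → Matrix B B ℂ), (∀ β, (FB β).PosSemidef) → (∑ β, FB β = 1) →
    ∀ (P : Matrix E E ℂ), P.PosSemidef → ∀ (D : Bool → Matrix E E ℂ),
    (∀ x, eve Ψ (EA (some x)) (∑ y, FB (some y)) = P * D x * P) →
    ∀ (p V2 Bh : ℝ), p = ∑ x, ∑ y, (eve Ψ (EA (some x)) (FB (some y))).trace.re →
    V2 = ((P*P)*(P*P)).trace.re * ∑ x, ((D x)ᴴ * D x).trace.re →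
    Bh = ∑ y, (∑ x, √((eve Ψ (EA (some x)) (FB (some y))).trace.re))^2 →
    V2 * Bh < p^3 → 0 < KD Ψ

namespace T1

theorem eve_eq (Ψ : Matrix (A × B) E ℂ) (M : Matrix A A ℂ) (N : Matrix B B ℂ) :
    eve Ψ M N = (Ψᴴ * (M ⊗ₖ N) * Ψ)ᵀ := by
  ext e e'
  change (∑ p : A × B, ∑ q : A × B, M q.1 p.1 * N q.2 p.2 * (Ψ p e * star (Ψ q e'))) = _
  simp only [transpose_apply, mul_apply, conjTranspose_apply, kroneckerMap_apply,
    Finset.sum_mul]
  refine Finset.sum_congr rfl fun p _ => Finset.sum_congr rfl fun q _ => ?_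
  ring

theorem eve_add_left (Ψ : Matrix (A × B) E ℂ) (M M' : Matrix A A ℂ) (N : Matrix B B ℂ) :
    eve Ψ (M + M') N = eve Ψ M N + eve Ψ M' N := by
  simp only [eve_eq, add_kronecker, Matrix.mul_add, Matrix.add_mul, transpose_add]

theorem eve_sub_left (Ψ : Matrix (A × B) E ℂ) (M M' : Matrix A A ℂ) (N : Matrix B B ℂ) :
    eve Ψ (M - M') N = eve Ψ M N - eve Ψ M' N := by
  rw [eq_sub_iff_add_eq, ← eve_add_left, sub_add_cancel]

theorem eve_smul_left (Ψ : Matrix (A × B) E ℂ) (c : ℂ) (M : Matrix A A ℂ) (N : Matrix B B ℂ) :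
    eve Ψ (c • M) N = c • eve Ψ M N := by
  simp only [eve_eq, smul_kronecker, Matrix.mul_smul, Matrix.smul_mul, transpose_smul]

theorem eve_add_right (Ψ : Matrix (A × B) E ℂ) (M : Matrix A A ℂ) (N N' : Matrix B B ℂ) :
    eve Ψ M (N + N') = eve Ψ M N + eve Ψ M N' := by
  simp only [eve_eq, kronecker_add, Matrix.mul_add, Matrix.add_mul, transpose_add]

theorem eve_sub_right (Ψ : Matrix (A × B) E ℂ) (M : Matrix A A ℂ) (N N' : Matrix B B ℂ) :
    eve Ψ M (N - N') = eve Ψ M N - eve Ψ M N' := by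
  rw [eq_sub_iff_add_eq, ← eve_add_right, sub_add_cancel]

theorem eve_smul_right (Ψ : Matrix (A × B) E ℂ) (c : ℂ) (M : Matrix A A ℂ) (N : Matrix B B ℂ) :
    eve Ψ M (c • N) = c • eve Ψ M N := by
  simp only [eve_eq, kronecker_smul, Matrix.mul_smul, Matrix.smul_mul, transpose_smul]

theorem eve_one_one (Ψ : Matrix (A × B) E ℂ) : eve Ψ 1 1 = (Ψᴴ * Ψ)ᵀ := by
  rw [eve_eq, one_kronecker_one, Matrix.mul_one]

theorem eve_posSemidef (Ψ : Matrix (A × B) E ℂ) {M : Matrix A A ℂ} {N : Matrix B B ℂ}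
    (hM : M.PosSemidef) (hN : N.PosSemidef) : (eve Ψ M N).PosSemidef := by
  rw [eve_eq]
  exact ((hM.kronecker hN).conjTranspose_mul_mul_same Ψ).transpose

theorem eve_conjTranspose (Ψ : Matrix (A × B) E ℂ) (M : Matrix A A ℂ) (N : Matrix B B ℂ) :
    (eve Ψ M N)ᴴ = eve Ψ Mᴴ Nᴴ := by
  rw [eve_eq, eve_eq, conjTranspose_transpose_eq_transpose_conjTranspose, conjTranspose_mul,
    conjTranspose_mul, conjTranspose_conjTranspose, conjTranspose_kronecker, Matrix.mul_assoc]

/-- For a Hermitian matrix `X`, `1 ± ε X` is positive semidefinite for small `ε`. -/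
theorem exists_eps {X : Matrix A A ℂ} (hX : X.IsHermitian) :
    ∃ ε : ℝ, 0 < ε ∧ (1 + (ε : ℂ) • X).PosSemidef ∧ (1 - (ε : ℂ) • X).PosSemidef := by
  set l := hX.eigenvalues with hl
  set S : ℝ := 1 + ∑ i, |l i| with hS
  have hS1 : 0 < S := by
    have : 0 ≤ ∑ i, |l i| := Finset.sum_nonneg fun _ _ => abs_nonneg _
    linarith
  have hlS : ∀ i, |l i| ≤ S := by
    intro i
    have := Finset.single_le_sum (f := fun i => |l i|) (fun _ _ => abs_nonneg _)
      (Finset.mem_univ i)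
    have h2 : |l i| ≤ ∑ i, |l i| := this
    linarith
  have key : ∀ c : ℝ, fcalc hX (fun x => 1 - c * x) = 1 - (c : ℂ) • X := by
    intro c
    rw [← fcalc_sub, fcalc_one]
    congr 1
    unfold fcalc
    have h1 : diagonal (fun i => ((c * hX.eigenvalues i : ℝ) : ℂ))
        = (c : ℂ) • diagonal (fun i => (hX.eigenvalues i : ℂ)) := by
      rw [← diagonal_smul]
      congr 1
      funext i
      simp
    rw [h1, Matrix.mul_smul, Matrix.smul_mul, ← spectral_eq hX]
  refine ⟨S⁻¹, inv_pos.mpr hS1, ?_, ?_⟩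
  · have h := fcalc_posSemidef hX (f := fun x => 1 - (-S⁻¹) * x) (fun i => by
      have h1 : -(l i) ≤ S := (neg_le_abs _).trans (hlS i)
      have h2 : S⁻¹ * -(l i) ≤ S⁻¹ * S := mul_le_mul_of_nonneg_left h1 (inv_pos.mpr hS1).le
      rw [inv_mul_cancel₀ hS1.ne'] at h2
      linarith)
    rw [key] at h
    have h3 : (1 : Matrix A A ℂ) - ((-S⁻¹ : ℝ) : ℂ) • X = 1 + ((S⁻¹ : ℝ) : ℂ) • X := by
      push_cast
      rw [neg_smul, sub_neg_eq_add]
    rwa [h3] at h
  · have h := fcalc_posSemidef hX (f := fun x => 1 - (S⁻¹) * x) (fun i => by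
      have h1 : (l i) ≤ S := (le_abs_self _).trans (hlS i)
      have h2 : S⁻¹ * (l i) ≤ S⁻¹ * S := mul_le_mul_of_nonneg_left h1 (inv_pos.mpr hS1).le
      rw [inv_mul_cancel₀ hS1.ne'] at h2
      linarith)
    rwa [key] at h

theorem one_sub_smul_posSemidef {H : Matrix B B ℂ} (hH : H.PosSemidef) {c : ℝ} (hc : 0 ≤ c)
    (hcH : c * H.trace.re ≤ 1) : (1 - (c : ℂ) • H).PosSemidef := by
  have hX := hH.1
  have key : fcalc hX (fun x => 1 - c * x) = 1 - (c : ℂ) • H := by
    rw [← fcalc_sub, fcalc_one]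
    congr 1
    unfold fcalc
    have h1 : diagonal (fun i => ((c * hX.eigenvalues i : ℝ) : ℂ))
        = (c : ℂ) • diagonal (fun i => (hX.eigenvalues i : ℂ)) := by
      rw [← diagonal_smul]
      congr 1
      funext i
      simp
    rw [h1, Matrix.mul_smul, Matrix.smul_mul, ← spectral_eq hX]
  rw [← key]
  refine fcalc_posSemidef hX fun i => ?_
  have htr : H.trace.re = ∑ i, hX.eigenvalues i := by
    rw [hX.trace_eq_sum_eigenvalues]
    simp
  have h1 : hX.eigenvalues i ≤ H.trace.re := by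
    rw [htr]
    exact Finset.single_le_sum (f := fun i => hX.eigenvalues i)
      (fun i _ => hH.eigenvalues_nonneg i) (Finset.mem_univ i)
  have h2 := mul_le_mul_of_nonneg_left h1 hc
  linarith

theorem scalar_ineq {h C κ δ c V2 Bh p : ℝ} (hh : 0 < h) (hc : 0 < c) (hδ : 0 < δ)
    (hC : 0 ≤ C) (hκ : 2 * δ * C < κ) (hV0 : 0 ≤ V2) (hB0 : 0 ≤ Bh)
    (hV : V2 ≤ 1 / 2 * c ^ 2 * ((h + δ) ^ 2 + δ ^ 2 * h * C))
    (hB : Bh ≤ c * (2 * (h + δ) - δ * κ)) (hp : p = c * (h + δ)) : V2 * Bh < p ^ 3 := by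
  have h1 : V2 * Bh ≤ (1 / 2 * c ^ 2 * ((h + δ) ^ 2 + δ ^ 2 * h * C)) *
      (c * (2 * (h + δ) - δ * κ)) := mul_le_mul hV hB hB0 (hV0.trans hV)
  refine h1.trans_lt ?_
  rw [hp]
  have hκ0 : 0 < κ := lt_of_le_of_lt (by positivity) hκ
  have h2 : 0 < c ^ 3 * (1 / 2 * δ * (h + δ) * (κ * (h + δ) - 2 * δ * h * C)
      + 1 / 2 * δ ^ 3 * h * C * κ) := by
    have h3 : 0 < κ * (h + δ) - 2 * δ * h * C := by
      have h4 : 2 * δ * C * h < κ * h := mul_lt_mul_of_pos_right hκ hh
      have h5 : 0 < κ * δ := mul_pos hκ0 hδ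
      nlinarith
    positivity
  nlinarith [h2]

theorem sqrt_pair {a b g : ℝ} (ha : 0 ≤ a) (hm : 0 ≤ b - g) (hp : 0 ≤ b + g) :
    (√(a * (b + g)) + √(a * (b - g))) ^ 2 = 2 * a * b + 2 * a * √(b ^ 2 - g ^ 2) := by
  have h1 : √(a * (b + g)) ^ 2 = a * (b + g) := Real.sq_sqrt (mul_nonneg ha hp)
  have h2 : √(a * (b - g)) ^ 2 = a * (b - g) := Real.sq_sqrt (mul_nonneg ha hm)
  have h3 : √(a * (b + g)) * √(a * (b - g)) = a * √(b ^ 2 - g ^ 2) := by
    rw [← Real.sqrt_mul (mul_nonneg ha hp)]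
    have : a * (b + g) * (a * (b - g)) = a ^ 2 * (b ^ 2 - g ^ 2) := by ring
    rw [this, Real.sqrt_mul (sq_nonneg a), Real.sqrt_sq ha]
  calc (√(a * (b + g)) + √(a * (b - g))) ^ 2
      = √(a * (b + g)) ^ 2 + √(a * (b - g)) ^ 2 + 2 * (√(a * (b + g)) * √(a * (b - g))) := by ring
    _ = _ := by rw [h1, h2, h3]; ring

theorem sqrt_add_sq_le {a b : ℝ} (ha : 0 ≤ a) (hb : 0 ≤ b) : (√a + √b) ^ 2 ≤ 2 * (a + b) := by
  have h1 := Real.sq_sqrt ha
  have h2 := Real.sq_sqrt hb
  nlinarith [sq_nonneg (√a - √b)]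

theorem eve_mulVec_eq_zero (Ψ : Matrix (A × B) E ℂ) (M : Matrix A A ℂ) (N : Matrix B B ℂ)
    {v : E → ℂ} (hv : eve Ψ 1 1 *ᵥ v = 0) : eve Ψ M N *ᵥ v = 0 := by
  have h0 : eve Ψ 1 1 = (Ψᴴᵀ)ᴴ * Ψᴴᵀ := by
    rw [eve_one_one, transpose_mul]
    congr 1
    rw [← conjTranspose_transpose_eq_transpose_conjTranspose, conjTranspose_conjTranspose]
  rw [h0, conjTranspose_mul_self_mulVec_eq_zero] at hv
  rw [eve_eq, transpose_mul, transpose_mul, ← mulVec_mulVec, ← mulVec_mulVec, hv, mulVec_zero,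
    mulVec_zero]

theorem mul_proj_eq {R S : Matrix E E ℂ} (hSS : S * S = S)
    (h : ∀ v : E → ℂ, S *ᵥ v = 0 → R *ᵥ v = 0) : R * S = R := by
  have h1 : R * (1 - S) = 0 := by
    apply ext_of_mulVec_single
    intro i
    rw [← mulVec_mulVec, zero_mulVec]
    apply h
    rw [mulVec_mulVec]
    have : S * (1 - S) = 0 := by rw [Matrix.mul_sub, Matrix.mul_one, hSS, sub_self]
    rw [this, zero_mulVec]
  rw [Matrix.mul_sub, Matrix.mul_one, sub_eq_zero] at h1
  exact h1.symm

theorem hs_add_add_hs_sub (Q L : Matrix E E ℂ) : hs (Q + L) + hs (Q - L) = 2 * hs Q + 2 * hs L := by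
  simp only [hs, Matrix.add_apply, Matrix.sub_apply, ← Finset.sum_add_distrib, Finset.mul_sum]
  refine Finset.sum_congr rfl fun i _ => Finset.sum_congr rfl fun j _ => ?_
  have := parallelogram_law_with_norm ℝ (Q i j) (L i j)
  nlinarith [this]

theorem hs_add_smul (Q L : Matrix E E ℂ) (r : ℝ) :
    hs (Q + (r : ℂ) • L) = hs Q + 2 * r * (Qᴴ * L).trace.re + r ^ 2 * hs L := by
  have h1 : (Lᴴ * Q).trace.re = (Qᴴ * L).trace.re := by
    have : (Lᴴ * Q).trace = star ((Qᴴ * L).trace) := by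
      rw [← trace_conjTranspose, conjTranspose_mul, conjTranspose_conjTranspose]
    rw [this, RCLike.star_def, Complex.conj_re]
  rw [hs_eq_re, hs_eq_re, hs_eq_re, conjTranspose_add, conjTranspose_smul, Matrix.add_mul,
    Matrix.mul_add, Matrix.mul_add, Matrix.smul_mul, Matrix.smul_mul, Matrix.mul_smul,
    Matrix.mul_smul, trace_add, trace_add, trace_add, trace_smul, trace_smul, trace_smul,
    trace_smul]
  simp only [Complex.add_re, smul_eq_mul, RCLike.star_def, Complex.conj_ofReal,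
    Complex.re_ofReal_mul, h1]
  ring

theorem hs_smul (c : ℂ) (L : Matrix E E ℂ) : hs (c • L) = ‖c‖ ^ 2 * hs L := by
  simp only [hs, Matrix.smul_apply, smul_eq_mul, norm_mul, Finset.mul_sum, mul_pow]

theorem hs_sum_bool (Q L : Matrix E E ℂ) {c : ℝ} (hc : 0 ≤ c) (r : ℝ) (s : Bool → ℝ)
    (hs1 : s true = 1) (hs2 : s false = -1) :
    ∑ x : Bool, hs ((c / 2 : ℂ) • (Q + ((s x * r : ℝ) : ℂ) • L))
      = c ^ 2 / 2 * (hs Q + r ^ 2 * hs L) := by
  have hc2 : ‖(c / 2 : ℂ)‖ = c / 2 := by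
    rw [show (c / 2 : ℂ) = ((c / 2 : ℝ) : ℂ) by push_cast; rfl, Complex.norm_real,
      Real.norm_of_nonneg (by linarith)]
  rw [Fintype.sum_bool, hs_smul, hs_smul, hs_add_smul, hs_add_smul, hs1, hs2, hc2]
  ring

theorem V_ineq (h c δ C : ℝ) :
    h * (c ^ 2 / 2 * (h + 2 * δ + δ ^ 2 * C)) ≤ 1 / 2 * c ^ 2 * ((h + δ) ^ 2 + δ ^ 2 * h * C) := by
  have : 0 ≤ (c * δ) ^ 2 := sq_nonneg _
  nlinarith [this]

theorem hs_fourth {P P' R S T : Matrix E E ℂ} (hP : P.PosSemidef) (hT : T = P' * R * P')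
    (hPP' : P * P' = S) (hP'P : P' * P = S) (hSR : S * R = R) (hRS : R * S = R) (δ : ℝ) :
    hs (P * P + (δ : ℂ) • T) = ((P * P) * (P * P)).trace.re + 2 * δ * R.trace.re
      + δ ^ 2 * hs T := by
  have hPPh : (P * P)ᴴ = P * P := by rw [conjTranspose_mul, hP.1.eq]
  have hPT : ((P * P)ᴴ * T).trace = R.trace := by
    rw [hPPh]
    calc (P * P * T).trace = (P * (P * P' * R * P')).trace := by
          rw [hT]; congr 1; noncomm_ring
      _ = (P * P' * R * P' * P).trace := by rw [trace_mul_comm]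
      _ = (S * R * S).trace := by rw [hPP', Matrix.mul_assoc _ P' P, hP'P]
      _ = R.trace := by rw [hSR, hRS]
  rw [hs_add_smul, hPT, hs_eq_re (P * P), hPPh]

end T1

open T1 in
/-- The kernel criterion, from the one-way distillation theorem. -/
theorem kernel_criterion_of (Ψ : Matrix (A × B) E ℂ) (hblock : BlockPosStatement Ψ)
    (hΨ : (Ψ * Ψᴴ).trace = 1)
    {X : Matrix A A ℂ} (hX : X.IsHermitian) {H Φ : Matrix B B ℂ} (hH : H.PosSemidef)
    (hΦ : Φ.PosSemidef) (h1 : eve Ψ X H = 0)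
    (h2 : ∀ v : E → ℂ, eve Ψ 1 H *ᵥ v = 0 → eve Ψ 1 1 *ᵥ v = 0)
    (h3 : (eve Ψ X Φ).trace ≠ 0) : 0 < KD Ψ := by
  classical
  -- normalise
  obtain ⟨ε, hε, hεp, hεm⟩ := exists_eps hX
  set t : ℝ := (1 + Φ.trace.re)⁻¹ with ht
  have hΦtr : 0 ≤ Φ.trace.re := (Complex.le_def.mp hΦ.trace_nonneg).1
  have ht0 : 0 < t := inv_pos.mpr (by linarith)
  set Φ' : Matrix B B ℂ := (t : ℂ) • Φ with hΦ'
  have hΦ'p : Φ'.PosSemidef := hΦ.smul (by exact_mod_cast ht0.le)
  have hΦ'1 : (1 - Φ').PosSemidef := by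
    refine one_sub_smul_posSemidef hΦ ht0.le ?_
    rw [ht, inv_mul_le_iff₀ (by linarith)]
    linarith
  have h3' : (eve Ψ X Φ').trace ≠ 0 := by
    rw [hΦ', eve_smul_right, trace_smul]
    refine smul_ne_zero ?_ h3
    exact_mod_cast ht0.ne'
  clear_value Φ'
  -- Eve's operators
  set G := eve Ψ 1 H with hG
  set R := eve Ψ 1 1 with hR
  set K := eve Ψ X 1 with hK
  have hGp : G.PosSemidef := eve_posSemidef Ψ PosSemidef.one hH
  have hRp : R.PosSemidef := eve_posSemidef Ψ PosSemidef.one PosSemidef.one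
  have hKh : Kᴴ = K := by rw [hK, eve_conjTranspose, hX.eq, conjTranspose_one]
  obtain ⟨P, P', S, hP, hP', hS, hPG, hPP', hP'P, hSS, hSG, hGS, hker⟩ :=
    exists_fourth_root_pinv hGp
  have hRtr : R.trace = 1 := by
    rw [hR, eve_one_one, trace_transpose, trace_mul_comm, hΨ]
  have hSker : ∀ v : E → ℂ, S *ᵥ v = 0 → R *ᵥ v = 0 := by
    intro v hv
    apply h2
    rw [← hGS, ← mulVec_mulVec, hv, mulVec_zero]
  have hRS : R * S = R := mul_proj_eq hSS hSker
  have hSR : S * R = R := by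
    have := congrArg conjTranspose hRS
    rwa [conjTranspose_mul, hRp.1.eq, hS.1.eq] at this
  have hKS : K * S = K := mul_proj_eq hSS fun v hv => eve_mulVec_eq_zero Ψ X 1 (hSker v hv)
  have hSK : S * K = K := by
    have := congrArg conjTranspose hKS
    rwa [conjTranspose_mul, hKh, hS.1.eq] at this
  set h : ℝ := G.trace.re with hh
  have hh0 : 0 < h := by
    have h0 : 0 ≤ G.trace := hGp.trace_nonneg
    have h0' := Complex.le_def.mp h0
    rcases h0'.1.lt_or_eq with hlt | heq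
    · exact hlt
    · exfalso
      have h01 : G.trace = 0 := Complex.ext (by simpa using heq.symm) (by simpa using h0'.2.symm)
      have hG0 : G = 0 := (hGp.trace_eq_zero_iff).mp h01
      have hR0 : R = 0 := by
        rw [← hRS]
        have hS0 : S = 0 := by
          apply ext_of_mulVec_single
          intro i
          rw [zero_mulVec]
          apply hker
          rw [hG0, zero_mulVec]
        rw [hS0, Matrix.mul_zero]
      rw [hR0, trace_zero] at hRtr
      exact zero_ne_one hRtr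
  set T : Matrix E E ℂ := P' * R * P' with hT
  set L : Matrix E E ℂ := P' * K * P' with hL
  have hPTP : P * T * P = R := by
    calc P * T * P = (P * P') * R * (P' * P) := by rw [hT]; noncomm_ring
      _ = R := by rw [hPP', hP'P, hSR, hRS]
  have hPLP : P * L * P = K := by
    calc P * L * P = (P * P') * K * (P' * P) := by rw [hL]; noncomm_ring
      _ = K := by rw [hPP', hP'P, hSK, hKS]
  -- scalars
  set C : ℝ := hs T + ε ^ 2 * hs L with hC
  have hC0 : 0 ≤ C := add_nonneg (hs_nonneg _) (mul_nonneg (sq_nonneg _) (hs_nonneg _))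
  set b0 : ℝ := (eve Ψ 1 Φ').trace.re with hb0
  set g : ℝ := (eve Ψ X Φ').trace.re with hg
  have hg_im : (eve Ψ X Φ').trace.im = 0 := by
    have h4 : star ((eve Ψ X Φ').trace) = (eve Ψ X Φ').trace := by
      rw [← trace_conjTranspose, eve_conjTranspose, hX.eq, hΦ'p.1.eq]
    exact Complex.conj_eq_iff_im.mp h4
  have hg0 : g ≠ 0 := by
    intro h0
    exact h3' (Complex.ext (by simpa using h0) (by simpa using hg_im))
  have hbp : 0 ≤ b0 + ε * g := by
    have h4 := (Complex.le_def.mp (eve_posSemidef Ψ hεp hΦ'p).trace_nonneg).1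
    rw [eve_add_left, eve_smul_left, trace_add, trace_smul] at h4
    simpa [hb0, hg] using h4
  have hbm : 0 ≤ b0 - ε * g := by
    have h4 := (Complex.le_def.mp (eve_posSemidef Ψ hεm hΦ'p).trace_nonneg).1
    rw [eve_sub_left, eve_smul_left, trace_sub, trace_smul] at h4
    simpa [hb0, hg] using h4
  have hεg : 0 < |ε * g| := abs_pos.mpr (mul_ne_zero hε.ne' hg0)
  have hb0pos : 0 < b0 := by
    rcases abs_cases (ε * g) with h5 | h5 <;> linarith
  set κ : ℝ := b0 - √(b0 ^ 2 - (ε * g) ^ 2) with hκ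
  have hκ0 : 0 < κ := by
    have h5 : √(b0 ^ 2 - (ε * g) ^ 2) < √(b0 ^ 2) := by
      apply Real.sqrt_lt_sqrt
      · nlinarith
      · have := pow_pos hεg 2
        rw [sq_abs] at this
        linarith
    rw [Real.sqrt_sq hb0pos.le] at h5
    linarith
  set δ : ℝ := κ / (2 * C + 1) with hδ
  have hδ0 : 0 < δ := by positivity
  have hδκ : 2 * δ * C < κ := by
    rw [hδ]
    have : 2 * (κ / (2 * C + 1)) * C = κ * (2 * C / (2 * C + 1)) := by ring
    rw [this]
    have h6 : 2 * C / (2 * C + 1) < 1 := by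
      rw [div_lt_one (by linarith)]
      linarith
    calc κ * (2 * C / (2 * C + 1)) < κ * 1 := mul_lt_mul_of_pos_left h6 hκ0
      _ = κ := mul_one κ
  clear_value δ
  set Hδ : Matrix B B ℂ := H + (δ : ℂ) • 1 with hHδ
  have hHδp : Hδ.PosSemidef := hH.add (PosSemidef.one.smul (by exact_mod_cast hδ0.le))
  have hHδtr : 0 ≤ Hδ.trace.re := (Complex.le_def.mp hHδp.trace_nonneg).1
  set c : ℝ := (1 + Hδ.trace.re)⁻¹ with hc
  have hc0 : 0 < c := inv_pos.mpr (by linarith)
  have hHδ1 : (1 - (c : ℂ) • Hδ).PosSemidef := by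
    refine one_sub_smul_posSemidef hHδp hc0.le ?_
    rw [hc, inv_mul_le_iff₀ (by linarith)]
    linarith
  clear_value c
  -- the measurements
  let s : Bool → ℝ := fun x => if x then 1 else -1
  let EA : Option Bool → Matrix A A ℂ := fun α => α.elim 0 fun x =>
    (1 / 2 : ℂ) • (1 + ((s x * ε : ℝ) : ℂ) • X)
  let FB : Option Bool → Matrix B B ℂ := fun β => β.elim (1 - (c : ℂ) • Hδ) fun y =>
    if y then (c * δ : ℂ) • Φ' else (c : ℂ) • (H + (δ : ℂ) • (1 - Φ'))
  have hEAt : ∀ x, (1 + ((s x * ε : ℝ) : ℂ) • X).PosSemidef := by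
    intro x
    cases x
    · have : (1 : Matrix A A ℂ) + ((s false * ε : ℝ) : ℂ) • X = 1 - (ε : ℂ) • X := by
        simp [s, sub_eq_add_neg]
      rw [this]; exact hεm
    · have : (1 : Matrix A A ℂ) + ((s true * ε : ℝ) : ℂ) • X = 1 + (ε : ℂ) • X := by
        simp [s]
      rw [this]; exact hεp
  have hhalf : (0 : ℂ) ≤ 1 / 2 := by
    rw [Complex.le_def]; norm_num
  have hcδ : (0 : ℂ) ≤ (c * δ : ℂ) := by
    rw [← Complex.ofReal_mul]
    exact_mod_cast (mul_pos hc0 hδ0).le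
  have hFBsum : ∑ y : Bool, FB (some y) = (c : ℂ) • Hδ := by
    rw [Fintype.sum_bool]
    simp only [FB, Option.elim_some, if_true, hHδ]
    simp only [Bool.false_eq_true, if_false, smul_add, smul_sub, smul_smul]
    abel
  refine hblock Bool EA ?_ ?_ FB ?_ ?_ P hP
    (fun x => (c / 2 : ℂ) • (P * P + (δ : ℂ) • T + ((s x * ε * δ : ℝ) : ℂ) • L)) ?_
    _ _ _ rfl rfl rfl ?_
  · intro α
    cases α with
    | none => exact PosSemidef.zero
    | some x => exact (hEAt x).smul hhalf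
  · rw [Fintype.sum_option, Fintype.sum_bool]
    simp only [EA, Option.elim_some, Option.elim_none, zero_add, s, if_true, Bool.false_eq_true,
      if_false]
    rw [← smul_add]
    have : (1 : Matrix A A ℂ) + ((1 * ε : ℝ) : ℂ) • X + (1 + ((-1 * ε : ℝ) : ℂ) • X)
        = (2 : ℂ) • 1 := by
      push_cast
      rw [two_smul, one_mul, neg_one_mul, neg_smul]
      abel
    rw [this, smul_smul]
    norm_num
  · intro β
    cases β with
    | none => exact hHδ1
    | some y =>
      cases y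
      · exact (hH.add (hΦ'1.smul (by exact_mod_cast hδ0.le))).smul (by exact_mod_cast hc0.le)
      · exact hΦ'p.smul hcδ
  · rw [Fintype.sum_option, hFBsum]
    simp only [FB, Option.elim_none, sub_add_cancel]
  · intro x
    rw [hFBsum]
    simp only [EA, Option.elim_some, hHδ]
    rw [eve_smul_left, eve_smul_right, eve_add_left, eve_smul_left, eve_add_right, eve_add_right,
      eve_smul_right, eve_smul_right, h1, ← hG, ← hR, ← hK]
    rw [Matrix.mul_smul, Matrix.smul_mul, Matrix.mul_add, Matrix.mul_add, Matrix.add_mul,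
      Matrix.add_mul, Matrix.mul_smul, Matrix.mul_smul, Matrix.smul_mul, Matrix.smul_mul,
      hPTP, hPLP]
    have : P * (P * P) * P = G := by rw [← hPG]; noncomm_ring
    rw [this, zero_add, smul_smul, smul_smul, add_assoc, add_assoc]
    congr 1
    · ring
    · congr 2
      push_cast
      ring_nf
  · -- the probabilities
    have hpt : ∀ x, (eve Ψ (EA (some x)) (FB (some true))).trace.re
        = c * δ / 2 * (b0 + s x * (ε * g)) := by
      intro x
      simp only [EA, FB, Option.elim_some, if_true]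
      rw [eve_smul_left, eve_smul_right, eve_add_left, eve_smul_left, trace_smul, trace_smul,
        trace_add, trace_smul]
      simp only [smul_eq_mul, Complex.mul_re, Complex.add_re, Complex.ofReal_re,
        Complex.ofReal_im, Complex.mul_im, Complex.add_im, hg_im, ← hb0, ← hg]
      norm_num
      ring
    have hpf0 : ∀ x, 0 ≤ (eve Ψ (EA (some x)) (FB (some false))).trace.re := by
      intro x
      refine (Complex.le_def.mp (eve_posSemidef Ψ ?_ ?_).trace_nonneg).1
      · exact (hEAt x).smul hhalf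
      · exact (hH.add (hΦ'1.smul (by exact_mod_cast hδ0.le))).smul (by exact_mod_cast hc0.le)
    have hEA1 : EA (some true) + EA (some false) = 1 := by
      simp only [EA, Option.elim_some, s, if_true, Bool.false_eq_true, if_false]
      rw [← smul_add]
      have : (1 : Matrix A A ℂ) + ((1 * ε : ℝ) : ℂ) • X + (1 + ((-1 * ε : ℝ) : ℂ) • X)
          = (2 : ℂ) • 1 := by
        push_cast
        rw [two_smul, one_mul, neg_one_mul, neg_smul]
        abel
      rw [this, smul_smul]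
      norm_num
    have hpf : (eve Ψ (EA (some true)) (FB (some false))).trace.re
        + (eve Ψ (EA (some false)) (FB (some false))).trace.re = c * (h + δ * (1 - b0)) := by
      rw [← Complex.add_re, ← trace_add, ← eve_add_left, hEA1]
      simp only [FB, Option.elim_some, Bool.false_eq_true, if_false]
      rw [eve_smul_right, eve_add_right, eve_smul_right, eve_sub_right, ← hG, ← hR, trace_smul,
        trace_add, trace_smul, trace_sub, hRtr]
      simp only [smul_eq_mul, Complex.mul_re, Complex.add_re, Complex.ofReal_re,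
        Complex.ofReal_im, Complex.sub_re, Complex.one_re, ← hb0, ← hh]
      ring
    have hbtt : 0 ≤ b0 + ε * g := hbp
    have hpair := sqrt_pair (a := c * δ / 2) (b := b0) (g := ε * g) (by positivity) hbm hbp
    have hhsQ : hs (P * P + (δ : ℂ) • T) = h + 2 * δ + δ ^ 2 * hs T := by
      rw [hs_fourth hP hT hPP' hP'P hSR hRS, hPG, hRtr, Complex.one_re, mul_one]
    have hV : ((P * P) * (P * P)).trace.re * ∑ x : Bool,
        (((c / 2 : ℂ) • (P * P + (δ : ℂ) • T + ((s x * ε * δ : ℝ) : ℂ) • L))ᴴ *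
        ((c / 2 : ℂ) • (P * P + (δ : ℂ) • T + ((s x * ε * δ : ℝ) : ℂ) • L))).trace.re
        = h * (c ^ 2 / 2 * (h + 2 * δ + δ ^ 2 * C)) := by
      rw [hPG, ← hh]
      congr 1
      simp only [← hs_eq_re, mul_assoc (s _) ε δ]
      rw [hs_sum_bool _ L hc0.le (ε * δ) s rfl rfl, hhsQ, hC]
      ring
    refine scalar_ineq (h := h) (C := C) (κ := κ) (δ := δ) (c := c) hh0 hc0 hδ0 hC0 hδκ
      ?_ ?_ ?_ ?_ ?_
    · rw [hV]; positivity
    · exact Finset.sum_nonneg fun _ _ => sq_nonneg _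
    · rw [hV]
      exact V_ineq h c δ C
    · simp only [Fintype.sum_bool, hpt]
      have h7 := sqrt_add_sq_le (hpf0 true) (hpf0 false)
      rw [hpf] at h7
      simp only [s, if_true, Bool.false_eq_true, if_false, one_mul, neg_one_mul, ← sub_eq_add_neg]
      rw [hpair]
      nlinarith [h7]
    · simp only [Fintype.sum_bool, hpt]
      simp only [s, if_true, Bool.false_eq_true, if_false, one_mul, neg_one_mul, ← sub_eq_add_neg]
      linarith [hpf]

end Vale.Agent.P372
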