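import Vale.Agent.P372.Official

open Matrix Kronecker
open scoped ComplexOrder

namespace Vale.Agent.P372

variable {A B : Type}

/-- The state `ρ^{⊗ n}`, with Alice's systems and Bob's systems collected. -/
def tpow (n : ℕ) (ρ : Matrix (A × B) (A × B) ℂ) :
    Matrix ((Fin n → A) × (Fin n → B)) ((Fin n → A) × (Fin n → B)) ℂ :=
  fun p q => ∏ i, ρ (p.1 i, p.2 i) (q.1 i, q.2 i)

/-- The product vector `a ⊗ b`. -/
def prodVec (a : A → ℂ) (b : B → ℂ) : A × B → ℂ := fun p => a p.1 * b p.2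

/-- The operator `|φ⟩⟨φ| + ∑_{i ≠ j} c i j |i j⟩⟨i j|` on `ℂ^3 ⊗ ℂ^3`, where `φ = ∑ i, |i i⟩`. -/
def cycState (c : Fin 3 → Fin 3 → ℝ) : Matrix (Fin 3 × Fin 3) (Fin 3 × Fin 3) ℂ := fun p q =>
  (if p.1 = p.2 ∧ q.1 = q.2 then 1 else 0) + if p = q ∧ p.1 ≠ p.2 then (c p.1 p.2 : ℂ) else 0

variable [Fintype A] [Fintype B]

/-- The inner product, conjugate linear on the left. -/
def sprod (v w : A → ℂ) : ℂ := ∑ p, star (v p) * w p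

/-- A finite sum of tensor products of positive semidefinite operators. -/
def IsSep (ρ : Matrix (A × B) (A × B) ℂ) : Prop :=
  ∃ (n : ℕ) (M : Fin n → Matrix A A ℂ) (N : Fin n → Matrix B B ℂ),
    (∀ k, (M k).PosSemidef) ∧ (∀ k, (N k).PosSemidef) ∧ ρ = ∑ k, M k ⊗ₖ N k

/-- Every purification of the state `ρ` has positive distillable key. -/
def KeyPos (ρ : Matrix (A × B) (A × B) ℂ) : Prop :=
  ∀ (E : Type) [Fintype E] [DecidableEq E] (Ψ : Matrix (A × B) E ℂ), Ψ * Ψᴴ = ρ →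
    0 < distillableKey Ψ

/-- The weight `tr [(X ⊗ Y) ρ (X ⊗ Y)*]`. -/
noncomputable def weight (ρ : Matrix (A × B) (A × B) ℂ) (X : Matrix A A ℂ) (Y : Matrix B B ℂ) : ℝ :=
  ((X ⊗ₖ Y) * ρ * (X ⊗ₖ Y)ᴴ).trace.re

/-- The test: for some local operators `X₀`, `X₁` of Alice in the set `S` and `Y₀`, `Y₁` of Bob,
`‖(X₀ ⊗ Y₀) ρ (X₁ ⊗ Y₁)*‖₁ ^ 4` is greater than the product of the four weights. -/
def KeyTest [DecidableEq A] [DecidableEq B] (ρ : Matrix (A × B) (A × B) ℂ)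
    (S : Set (Matrix A A ℂ)) : Prop :=
  ∃ X₀ ∈ S, ∃ X₁ ∈ S, ∃ Y₀ Y₁,
    weight ρ X₀ Y₀ * weight ρ X₀ Y₁ * weight ρ X₁ Y₀ * weight ρ X₁ Y₁ <
      traceNorm ((X₀ ⊗ₖ Y₀) * ρ * (X₁ ⊗ₖ Y₁)ᴴ) ^ 4

end Vale.Agent.P372
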