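import Vale.Agent.P372.Defs

/-! Trace norm of complex square matrices: variational characterisation and consequences. -/

open Matrix
open scoped ComplexOrder

namespace Vale.Agent.P372

section spectral

variable {n : Type} [Fintype n] [DecidableEq n]

/-- Spectral theorem with explicit unitary `hA.eigenvectorUnitary`. -/
theorem spectral_eq {A : Matrix n n ℂ} (hA : A.IsHermitian) :
    A = (hA.eigenvectorUnitary : Matrix n n ℂ) * diagonal (fun i => (hA.eigenvalues i : ℂ)) *
      (hA.eigenvectorUnitary : Matrix n n ℂ)ᴴ := by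
  have h := hA.spectral_theorem
  rw [Unitary.conjStarAlgAut_apply] at h
  exact h

theorem eigU_mul {A : Matrix n n ℂ} (hA : A.IsHermitian) :
    (hA.eigenvectorUnitary : Matrix n n ℂ) * (hA.eigenvectorUnitary : Matrix n n ℂ)ᴴ = 1 :=
  Unitary.coe_mul_star_self _

theorem eigU_mul' {A : Matrix n n ℂ} (hA : A.IsHermitian) :
    (hA.eigenvectorUnitary : Matrix n n ℂ)ᴴ * (hA.eigenvectorUnitary : Matrix n n ℂ) = 1 :=
  Unitary.coe_star_mul_self _

end spectral

section hs

variable {m n k : Type} [Fintype m] [Fintype n] [Fintype k]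

/-- Squared Hilbert-Schmidt norm. -/
noncomputable def hs (A : Matrix m n ℂ) : ℝ := ∑ i, ∑ j, ‖A i j‖ ^ 2

theorem hs_nonneg (A : Matrix m n ℂ) : 0 ≤ hs A :=
  Finset.sum_nonneg fun _ _ => Finset.sum_nonneg fun _ _ => by positivity

theorem trace_conjTranspose_mul_self (A : Matrix m n ℂ) : (Aᴴ * A).trace = (hs A : ℂ) := by
  simp only [hs, trace, diag, mul_apply, conjTranspose_apply, RCLike.star_def]
  rw [Finset.sum_comm]
  push_cast
  refine Finset.sum_congr rfl fun i _ => Finset.sum_congr rfl fun j _ => ?_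
  rw [Complex.conj_mul']

theorem hs_eq_re (A : Matrix m n ℂ) : hs A = (Aᴴ * A).trace.re := by
  rw [trace_conjTranspose_mul_self, Complex.ofReal_re]

theorem hs_conjTranspose (A : Matrix m n ℂ) : hs Aᴴ = hs A := by
  simp only [hs, conjTranspose_apply, norm_star]
  rw [Finset.sum_comm]

/-- Cauchy-Schwarz for the Hilbert-Schmidt inner product. -/
theorem norm_trace_conjTranspose_mul_le (A B : Matrix m n ℂ) :
    ‖(Aᴴ * B).trace‖ ≤ √(hs A) * √(hs B) := by
  have h1 : (Aᴴ * B).trace = ∑ p : n × m, star (A p.2 p.1) * B p.2 p.1 := by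
    rw [Fintype.sum_prod_type]
    simp only [trace, diag, mul_apply, conjTranspose_apply]
  have h2 : hs A = ∑ p : n × m, ‖A p.2 p.1‖ ^ 2 := by
    rw [Fintype.sum_prod_type, Finset.sum_comm]; rfl
  have h3 : hs B = ∑ p : n × m, ‖B p.2 p.1‖ ^ 2 := by
    rw [Fintype.sum_prod_type, Finset.sum_comm]; rfl
  rw [h1, h2, h3]
  refine (norm_sum_le _ _).trans ?_
  simp only [norm_mul, norm_star]
  exact Real.sum_mul_le_sqrt_mul_sqrt _ _ _

theorem norm_trace_mul_le_hs (A : Matrix m n ℂ) (B : Matrix n m ℂ) :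
    ‖(A * B).trace‖ ≤ √(hs A) * √(hs B) := by
  have := norm_trace_conjTranspose_mul_le Aᴴ B
  rwa [conjTranspose_conjTranspose, hs_conjTranspose] at this

theorem hs_mul_le_left [DecidableEq m] {W : Matrix k m ℂ} (hW : (1 - Wᴴ * W).PosSemidef)
    (A : Matrix m n ℂ) : hs (W * A) ≤ hs A := by
  have h := (hW.conjTranspose_mul_mul_same A).trace_nonneg
  have h2 : (Aᴴ * (1 - Wᴴ * W) * A).trace = (hs A : ℂ) - (hs (W * A) : ℂ) := by
    rw [← trace_conjTranspose_mul_self, ← trace_conjTranspose_mul_self, ← trace_sub]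
    congr 1
    rw [conjTranspose_mul, Matrix.mul_sub, Matrix.sub_mul, Matrix.mul_one]
    simp only [Matrix.mul_assoc]
  rw [h2] at h
  have h3 := (Complex.le_def.mp h).1
  simp at h3
  exact h3

theorem hs_mul_le_right [DecidableEq m] {W : Matrix m k ℂ} (hW : (1 - W * Wᴴ).PosSemidef)
    (A : Matrix n m ℂ) : hs (A * W) ≤ hs A := by
  rw [← hs_conjTranspose (A * W), conjTranspose_mul, ← hs_conjTranspose A]
  refine hs_mul_le_left ?_ _
  rwa [conjTranspose_conjTranspose]

end hs

variable {E : Type} [Fintype E] [DecidableEq E]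

/-- `W` is a contraction. -/
def Contr (W : Matrix E E ℂ) : Prop := (1 - W * Wᴴ).PosSemidef ∧ (1 - Wᴴ * W).PosSemidef

theorem contr_one : Contr (1 : Matrix E E ℂ) := by
  constructor <;> simp [PosSemidef.zero]

theorem Contr.conjTranspose {W : Matrix E E ℂ} (h : Contr W) : Contr Wᴴ := by
  refine ⟨?_, ?_⟩
  · rw [conjTranspose_conjTranspose]; exact h.2
  · rw [conjTranspose_conjTranspose]; exact h.1

theorem Contr.neg {W : Matrix E E ℂ} (h : Contr W) : Contr (-W) := by
  refine ⟨?_, ?_⟩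
  · rw [conjTranspose_neg, neg_mul_neg]; exact h.1
  · rw [conjTranspose_neg, neg_mul_neg]; exact h.2

theorem traceNorm_nonneg (X : Matrix E E ℂ) : 0 ≤ traceNorm X :=
  Finset.sum_nonneg fun _ _ => Real.sqrt_nonneg _

/-- The trace norm is attained at a contraction. -/
theorem traceNorm_exists (X : Matrix E E ℂ) :
    ∃ W, Contr W ∧ (W * X).trace = (traceNorm X : ℂ) := by
  set hX := isHermitian_conjTranspose_mul_self X with hXdef
  set U : Matrix E E ℂ := (hX.eigenvectorUnitary : Matrix E E ℂ) with hU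
  set l : E → ℝ := hX.eigenvalues with hl
  have hl0 : ∀ i, 0 ≤ l i := fun i => eigenvalues_conjTranspose_mul_self_nonneg X i
  have hsp : Xᴴ * X = U * diagonal (fun i => (l i : ℂ)) * Uᴴ := spectral_eq hX
  have hU1 : U * Uᴴ = 1 := eigU_mul hX
  have hU2 : Uᴴ * U = 1 := eigU_mul' hX
  set Y : Matrix E E ℂ := X * U with hY
  have hYY : Yᴴ * Y = diagonal (fun i => (l i : ℂ)) := by
    rw [hY, conjTranspose_mul]
    calc Uᴴ * Xᴴ * (X * U) = Uᴴ * (Xᴴ * X) * U := by noncomm_ring
      _ = (Uᴴ * U) * diagonal (fun i => (l i : ℂ)) * (Uᴴ * U) := by rw [hsp]; noncomm_ring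
      _ = _ := by rw [hU2, one_mul, mul_one]
  let s : E → ℝ := fun i => (√(l i))⁻¹
  let Ds : Matrix E E ℂ := diagonal (fun i => (s i : ℂ))
  have hDs : Dsᴴ = Ds := by
    rw [diagonal_conjTranspose]
    congr 1
    funext i
    simp
  have hsl : ∀ i, s i * l i = √(l i) := by
    intro i
    by_cases h : l i = 0
    · simp [s, h]
    · have h' : √(l i) ≠ 0 := by
        rw [Ne, Real.sqrt_eq_zero (hl0 i)]; exact h
      simp only [s]
      rw [inv_mul_eq_iff_eq_mul₀ h']
      exact (Real.mul_self_sqrt (hl0 i)).symm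
  have hsls : ∀ i, s i * l i * s i = if l i = 0 then 0 else 1 := by
    intro i
    rw [hsl]
    by_cases h : l i = 0
    · simp [h]
    · have h' : √(l i) ≠ 0 := by
        rw [Ne, Real.sqrt_eq_zero (hl0 i)]; exact h
      simp [h, s, h']
  set W' : Matrix E E ℂ := Ds * Yᴴ with hW'
  have hW'Y : W' * Y = diagonal (fun i => ((√(l i) : ℝ) : ℂ)) := by
    rw [hW', Matrix.mul_assoc, hYY, diagonal_mul_diagonal]
    congr 1
    funext i
    rw [← Complex.ofReal_mul, hsl]
  have hWW : W' * W'ᴴ = diagonal (fun i => ((if l i = 0 then 0 else 1 : ℝ) : ℂ)) := by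
    rw [hW', conjTranspose_mul Ds, conjTranspose_conjTranspose, hDs]
    calc Ds * Yᴴ * (Y * Ds) = Ds * (Yᴴ * Y) * Ds := by noncomm_ring
      _ = _ := by
        rw [hYY, diagonal_mul_diagonal, diagonal_mul_diagonal]
        congr 1
        funext i
        rw [← Complex.ofReal_mul, ← Complex.ofReal_mul, hsls]
  have hWW2 : W'ᴴ * W' * (W'ᴴ * W') = W'ᴴ * W' := by
    calc W'ᴴ * W' * (W'ᴴ * W') = W'ᴴ * (W' * W'ᴴ) * W' := by noncomm_ring
      _ = W'ᴴ * W' := by
        rw [hWW, hW', conjTranspose_mul Ds, conjTranspose_conjTranspose, hDs]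
        have : Ds * (diagonal (fun i => ((if l i = 0 then 0 else 1 : ℝ) : ℂ))) = Ds := by
          rw [diagonal_mul_diagonal]
          congr 1
          funext i
          by_cases h : l i = 0
          · simp [h, s]
          · simp [h]
        calc Y * Ds * diagonal (fun i => ((if l i = 0 then 0 else 1 : ℝ) : ℂ)) * (Ds * Yᴴ)
            = Y * (Ds * diagonal (fun i => ((if l i = 0 then 0 else 1 : ℝ) : ℂ))) * (Ds * Yᴴ) := by
              noncomm_ring
          _ = _ := by rw [this]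
  have hWherm : (W'ᴴ * W')ᴴ = W'ᴴ * W' := by
    rw [conjTranspose_mul, conjTranspose_conjTranspose]
  refine ⟨U * W', ⟨?_, ?_⟩, ?_⟩
  · have h1 : (1 : Matrix E E ℂ) - U * W' * (U * W')ᴴ
        = U * diagonal (fun i => ((if l i = 0 then 1 else 0 : ℝ) : ℂ)) * Uᴴ := by
      have h2 : diagonal (fun i => ((if l i = 0 then 1 else 0 : ℝ) : ℂ))
          = 1 - W' * W'ᴴ := by
        rw [hWW, ← diagonal_one, diagonal_sub]
        congr 1
        funext i
        by_cases h : l i = 0 <;> simp [h]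
      rw [h2, conjTranspose_mul]
      have h3 : (1 : Matrix E E ℂ) = U * Uᴴ := hU1.symm
      calc (1 : Matrix E E ℂ) - U * W' * (W'ᴴ * Uᴴ) = U * Uᴴ - U * (W' * W'ᴴ) * Uᴴ := by
            rw [← h3]; noncomm_ring
        _ = U * (1 - W' * W'ᴴ) * Uᴴ := by noncomm_ring
    rw [h1]
    refine PosSemidef.mul_mul_conjTranspose_same ?_ U
    rw [posSemidef_diagonal_iff]
    intro i
    by_cases h : l i = 0 <;> simp [h]
  · have h1 : (1 : Matrix E E ℂ) - (U * W')ᴴ * (U * W')
        = (1 - W'ᴴ * W')ᴴ * (1 - W'ᴴ * W') := by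
      rw [conjTranspose_sub, conjTranspose_one, hWherm, conjTranspose_mul]
      calc (1 : Matrix E E ℂ) - W'ᴴ * Uᴴ * (U * W') = 1 - W'ᴴ * (Uᴴ * U) * W' := by noncomm_ring
        _ = 1 - W'ᴴ * W' := by rw [hU2, mul_one]
        _ = 1 - W'ᴴ * W' - W'ᴴ * W' + W'ᴴ * W' * (W'ᴴ * W') := by rw [hWW2]; noncomm_ring
        _ = _ := by noncomm_ring
    rw [h1]
    exact posSemidef_conjTranspose_mul_self _
  · have h1 : (U * W' * X).trace = (W' * Y).trace := by
      rw [Matrix.mul_assoc, trace_mul_comm, hY, Matrix.mul_assoc]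
    rw [h1, hW'Y, trace_diagonal]
    simp only [traceNorm]
    push_cast
    rfl

/-- `|tr (W X)| ≤ ‖X‖₁` for contractions `W`. -/
theorem norm_trace_mul_le {W : Matrix E E ℂ} (hW : Contr W) (X : Matrix E E ℂ) :
    ‖(W * X).trace‖ ≤ traceNorm X := by
  set hX := isHermitian_conjTranspose_mul_self X with hXdef
  set U : Matrix E E ℂ := (hX.eigenvectorUnitary : Matrix E E ℂ) with hU
  set l : E → ℝ := hX.eigenvalues with hl
  have hl0 : ∀ i, 0 ≤ l i := fun i => eigenvalues_conjTranspose_mul_self_nonneg X i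
  have hsp : Xᴴ * X = U * diagonal (fun i => (l i : ℂ)) * Uᴴ := spectral_eq hX
  have hU1 : U * Uᴴ = 1 := eigU_mul hX
  have hU2 : Uᴴ * U = 1 := eigU_mul' hX
  set Y : Matrix E E ℂ := X * U with hY
  have hYY : Yᴴ * Y = diagonal (fun i => (l i : ℂ)) := by
    rw [hY, conjTranspose_mul]
    calc Uᴴ * Xᴴ * (X * U) = Uᴴ * (Xᴴ * X) * U := by noncomm_ring
      _ = (Uᴴ * U) * diagonal (fun i => (l i : ℂ)) * (Uᴴ * U) := by rw [hsp]; noncomm_ring
      _ = _ := by rw [hU2, one_mul, mul_one]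
  set Z : Matrix E E ℂ := Uᴴ * W with hZ
  have h1 : (W * X).trace = ∑ i, ∑ j, Z i j * Y j i := by
    have : (W * X).trace = (Z * Y).trace := by
      rw [hZ, hY]
      calc (W * X).trace = ((W * X) * (U * Uᴴ)).trace := by rw [hU1, mul_one]
        _ = (Uᴴ * (W * X * U)).trace := by
            rw [← Matrix.mul_assoc, trace_mul_comm]
        _ = _ := by congr 1; noncomm_ring
    rw [this]
    simp only [trace, diag, mul_apply]
  have hZZ : ∀ i, ∑ j, ‖Z i j‖ ^ 2 ≤ 1 := by
    intro i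
    have h2 : (1 - Z * Zᴴ).PosSemidef := by
      have h3 : 1 - Z * Zᴴ = Uᴴ * (1 - W * Wᴴ) * U := by
        rw [hZ, conjTranspose_mul, conjTranspose_conjTranspose]
        calc (1 : Matrix E E ℂ) - Uᴴ * W * (Wᴴ * U) = Uᴴ * U - Uᴴ * (W * Wᴴ) * U := by
              rw [hU2]; noncomm_ring
          _ = _ := by noncomm_ring
      rw [h3]
      exact hW.1.conjTranspose_mul_mul_same U
    have h4 := h2.diag_nonneg (i := i)
    have h5 : (1 - Z * Zᴴ) i i = ((1 - ∑ j, ‖Z i j‖ ^ 2 : ℝ) : ℂ) := by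
      rw [Matrix.sub_apply, one_apply_eq, mul_apply]
      push_cast
      congr 1
      refine Finset.sum_congr rfl fun j _ => ?_
      rw [conjTranspose_apply, RCLike.star_def, Complex.mul_conj']
    rw [h5, Complex.zero_le_real] at h4
    linarith
  have hYn : ∀ i, ∑ j, ‖Y j i‖ ^ 2 = l i := by
    intro i
    have h7 : (Yᴴ * Y) i i = ((∑ j, ‖Y j i‖ ^ 2 : ℝ) : ℂ) := by
      rw [mul_apply]
      push_cast
      refine Finset.sum_congr rfl fun j _ => ?_
      rw [conjTranspose_apply, RCLike.star_def, Complex.conj_mul']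
    rw [hYY, diagonal_apply_eq] at h7
    exact_mod_cast h7.symm
  rw [h1]
  refine (norm_sum_le _ _).trans ?_
  simp only [traceNorm]
  refine Finset.sum_le_sum fun i _ => ?_
  refine (norm_sum_le _ _).trans ?_
  simp only [norm_mul]
  refine (Real.sum_mul_le_sqrt_mul_sqrt _ _ _).trans ?_
  rw [hYn i]
  calc √(∑ j, ‖Z i j‖ ^ 2) * √(l i) ≤ 1 * √(l i) := by
        refine mul_le_mul_of_nonneg_right ?_ (Real.sqrt_nonneg _)
        exact Real.sqrt_le_iff.mpr ⟨zero_le_one, by simpa using hZZ i⟩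
    _ = _ := one_mul _

theorem traceNorm_le_of_forall {X : Matrix E E ℂ} {c : ℝ}
    (h : ∀ W, Contr W → ‖(W * X).trace‖ ≤ c) : traceNorm X ≤ c := by
  obtain ⟨W, hW, hWX⟩ := traceNorm_exists X
  have := h W hW
  rw [hWX, Complex.norm_real, Real.norm_of_nonneg (traceNorm_nonneg X)] at this
  exact this

@[simp] theorem traceNorm_zero : traceNorm (0 : Matrix E E ℂ) = 0 := by
  refine le_antisymm ?_ (traceNorm_nonneg _)
  refine traceNorm_le_of_forall fun W _ => ?_
  simp

theorem traceNorm_add_le (X Y : Matrix E E ℂ) :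
    traceNorm (X + Y) ≤ traceNorm X + traceNorm Y := by
  refine traceNorm_le_of_forall fun W hW => ?_
  rw [mul_add, trace_add]
  exact (norm_add_le _ _).trans (add_le_add (norm_trace_mul_le hW X) (norm_trace_mul_le hW Y))

theorem traceNorm_smul_le (c : ℂ) (X : Matrix E E ℂ) :
    traceNorm (c • X) ≤ ‖c‖ * traceNorm X := by
  refine traceNorm_le_of_forall fun W hW => ?_
  rw [Matrix.mul_smul, trace_smul, smul_eq_mul, norm_mul]
  exact mul_le_mul_of_nonneg_left (norm_trace_mul_le hW X) (norm_nonneg _)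

theorem traceNorm_smul (c : ℂ) (X : Matrix E E ℂ) :
    traceNorm (c • X) = ‖c‖ * traceNorm X := by
  refine le_antisymm (traceNorm_smul_le c X) ?_
  by_cases hc : c = 0
  · simp [hc]
  · have h := traceNorm_smul_le c⁻¹ (c • X)
    rw [smul_smul, inv_mul_cancel₀ hc, one_smul, norm_inv] at h
    have hc' : 0 < ‖c‖ := norm_pos_iff.mpr hc
    calc ‖c‖ * traceNorm X ≤ ‖c‖ * (‖c‖⁻¹ * traceNorm (c • X)) :=
          mul_le_mul_of_nonneg_left h hc'.le
      _ = traceNorm (c • X) := by
          rw [← mul_assoc, mul_inv_cancel₀ hc'.ne', one_mul]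

theorem traceNorm_neg (X : Matrix E E ℂ) : traceNorm (-X) = traceNorm X := by
  have := traceNorm_smul (-1) X
  simpa using this

theorem traceNorm_sub_le (X Y : Matrix E E ℂ) :
    traceNorm (X - Y) ≤ traceNorm X + traceNorm Y := by
  rw [sub_eq_add_neg, ← traceNorm_neg Y]
  exact traceNorm_add_le _ _

theorem traceNorm_sum_le {ι : Type*} (s : Finset ι) (f : ι → Matrix E E ℂ) :
    traceNorm (∑ i ∈ s, f i) ≤ ∑ i ∈ s, traceNorm (f i) := by
  refine traceNorm_le_of_forall fun W hW => ?_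
  rw [Finset.mul_sum, trace_sum]
  exact (norm_sum_le _ _).trans (Finset.sum_le_sum fun i _ => norm_trace_mul_le hW (f i))

theorem norm_trace_le (X : Matrix E E ℂ) : ‖X.trace‖ ≤ traceNorm X := by
  have := norm_trace_mul_le contr_one X
  rwa [one_mul] at this

theorem traceNorm_conjTranspose_le (X : Matrix E E ℂ) : traceNorm Xᴴ ≤ traceNorm X := by
  refine traceNorm_le_of_forall fun W hW => ?_
  have h : (W * Xᴴ).trace = star ((Wᴴ * X).trace) := by
    rw [← trace_conjTranspose, conjTranspose_mul, conjTranspose_conjTranspose, trace_mul_comm]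
  rw [h, norm_star]
  exact norm_trace_mul_le hW.conjTranspose X

theorem traceNorm_conjTranspose (X : Matrix E E ℂ) : traceNorm Xᴴ = traceNorm X :=
  le_antisymm (traceNorm_conjTranspose_le X) (by
    have := traceNorm_conjTranspose_le Xᴴ
    rwa [conjTranspose_conjTranspose] at this)

/-! ### Square roots, fourth roots and pseudo-inverses of positive semidefinite matrices -/

/-- Functional calculus for a Hermitian matrix via its spectral decomposition. -/
noncomputable def fcalc {A : Matrix E E ℂ} (hA : A.IsHermitian) (f : ℝ → ℝ) : Matrix E E ℂ :=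
  (hA.eigenvectorUnitary : Matrix E E ℂ) * diagonal (fun i => (f (hA.eigenvalues i) : ℂ)) *
      (hA.eigenvectorUnitary : Matrix E E ℂ)ᴴ

theorem fcalc_id {A : Matrix E E ℂ} (hA : A.IsHermitian) : fcalc hA (fun x => x) = A :=
  (spectral_eq hA).symm

theorem fcalc_mul {A : Matrix E E ℂ} (hA : A.IsHermitian) (f g : ℝ → ℝ) :
    fcalc hA f * fcalc hA g = fcalc hA (fun x => f x * g x) := by
  unfold fcalc
  set U : Matrix E E ℂ := (hA.eigenvectorUnitary : Matrix E E ℂ) with hU
  have hU2 : Uᴴ * U = 1 := eigU_mul' hA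
  calc U * diagonal (fun i => (f (hA.eigenvalues i) : ℂ)) * Uᴴ *
        (U * diagonal (fun i => (g (hA.eigenvalues i) : ℂ)) * Uᴴ)
      = U * diagonal (fun i => (f (hA.eigenvalues i) : ℂ)) * (Uᴴ * U) *
        diagonal (fun i => (g (hA.eigenvalues i) : ℂ)) * Uᴴ := by noncomm_ring
    _ = U * (diagonal (fun i => (f (hA.eigenvalues i) : ℂ)) *
        diagonal (fun i => (g (hA.eigenvalues i) : ℂ))) * Uᴴ := by
        rw [hU2, mul_one]; noncomm_ring
    _ = _ := by
        rw [diagonal_mul_diagonal]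
        push_cast
        rfl

theorem fcalc_congr {A : Matrix E E ℂ} (hA : A.IsHermitian) {f g : ℝ → ℝ}
    (h : ∀ i, f (hA.eigenvalues i) = g (hA.eigenvalues i)) : fcalc hA f = fcalc hA g := by
  unfold fcalc
  congr 2
  congr 1
  funext i
  rw [h]

theorem fcalc_posSemidef {A : Matrix E E ℂ} (hA : A.IsHermitian) {f : ℝ → ℝ}
    (h : ∀ i, 0 ≤ f (hA.eigenvalues i)) : (fcalc hA f).PosSemidef := by
  refine PosSemidef.mul_mul_conjTranspose_same ?_ _
  rw [posSemidef_diagonal_iff]
  intro i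
  exact_mod_cast h i

theorem fcalc_isHermitian {A : Matrix E E ℂ} (hA : A.IsHermitian) (f : ℝ → ℝ) :
    (fcalc hA f).IsHermitian := by
  unfold fcalc
  rw [IsHermitian, conjTranspose_mul, conjTranspose_mul, conjTranspose_conjTranspose,
    diagonal_conjTranspose, Matrix.mul_assoc]
  congr 2
  congr 1
  funext i
  simp

theorem fcalc_mul_self {A : Matrix E E ℂ} (hA : A.IsHermitian) (f : ℝ → ℝ) :
    fcalc hA f * A = fcalc hA (fun x => f x * x) := by
  calc fcalc hA f * A = fcalc hA f * fcalc hA (fun x => x) := by rw [fcalc_id]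
    _ = _ := fcalc_mul hA _ _

theorem self_mul_fcalc {A : Matrix E E ℂ} (hA : A.IsHermitian) (f : ℝ → ℝ) :
    A * fcalc hA f = fcalc hA (fun x => x * f x) := by
  calc A * fcalc hA f = fcalc hA (fun x => x) * fcalc hA f := by rw [fcalc_id]
    _ = _ := fcalc_mul hA _ _

theorem fcalc_eq_self {A : Matrix E E ℂ} (hA : A.IsHermitian) {f : ℝ → ℝ}
    (h : ∀ i, f (hA.eigenvalues i) = hA.eigenvalues i) : fcalc hA f = A :=
  (fcalc_congr hA h).trans (fcalc_id hA)

theorem fcalc_one {A : Matrix E E ℂ} (hA : A.IsHermitian) : fcalc hA (fun _ => 1) = 1 := by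
  unfold fcalc
  have : (diagonal (fun _ : E => ((1 : ℝ) : ℂ))) = (1 : Matrix E E ℂ) := by
    rw [Complex.ofReal_one]; rfl
  rw [this, mul_one, eigU_mul]

theorem fcalc_sub {A : Matrix E E ℂ} (hA : A.IsHermitian) (f g : ℝ → ℝ) :
    fcalc hA f - fcalc hA g = fcalc hA (fun x => f x - g x) := by
  unfold fcalc
  rw [← Matrix.sub_mul, ← Matrix.mul_sub, diagonal_sub]
  push_cast
  rfl

/-- Square root of a positive semidefinite matrix. -/
theorem exists_sqrt {X : Matrix E E ℂ} (hX : X.PosSemidef) :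
    ∃ P : Matrix E E ℂ, P.PosSemidef ∧ P * P = X := by
  refine ⟨fcalc hX.1 (fun x => √x), fcalc_posSemidef _ fun i => Real.sqrt_nonneg _, ?_⟩
  rw [fcalc_mul]
  exact fcalc_eq_self _ fun i => Real.mul_self_sqrt (hX.eigenvalues_nonneg i)

/-- Fourth root of a positive semidefinite matrix. -/
theorem exists_fourth_root {X : Matrix E E ℂ} (hX : X.PosSemidef) :
    ∃ P : Matrix E E ℂ, P.PosSemidef ∧ (P * P) * (P * P) = X := by
  obtain ⟨Q, hQ, hQX⟩ := exists_sqrt hX
  obtain ⟨P, hP, hPQ⟩ := exists_sqrt hQ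
  exact ⟨P, hP, by rw [hPQ, hQX]⟩

/-- Fourth root `P` of a positive semidefinite matrix `X` with its pseudo-inverse `P'`:
`P * P' = P' * P = S` is an orthogonal projection with `S * X = X` . -/
theorem exists_fourth_root_pinv {X : Matrix E E ℂ} (hX : X.PosSemidef) :
    ∃ P P' S : Matrix E E ℂ, P.PosSemidef ∧ P'.PosSemidef ∧ S.PosSemidef ∧
      (P * P) * (P * P) = X ∧ P * P' = S ∧ P' * P = S ∧ S * S = S ∧ S * X = X ∧ X * S = X ∧
      (∀ v : E → ℂ, X *ᵥ v = 0 → S *ᵥ v = 0) := by
  have h0 := hX.eigenvalues_nonneg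
  set r : ℝ → ℝ := fun x => √√x with hr
  refine ⟨fcalc hX.1 r, fcalc hX.1 (fun x => (r x)⁻¹),
    fcalc hX.1 (fun x => if x = 0 then 0 else 1),
    fcalc_posSemidef _ fun i => Real.sqrt_nonneg _,
    fcalc_posSemidef _ fun i => inv_nonneg.mpr (Real.sqrt_nonneg _),
    fcalc_posSemidef _ fun i => by split_ifs <;> norm_num, ?_, ?_, ?_, ?_, ?_, ?_, ?_⟩
  · rw [fcalc_mul, fcalc_mul]
    refine fcalc_eq_self _ fun i => ?_
    simp only [hr]
    rw [Real.mul_self_sqrt (Real.sqrt_nonneg _), Real.mul_self_sqrt (h0 i)]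
  · rw [fcalc_mul]
    refine fcalc_congr _ fun i => ?_
    by_cases h : hX.1.eigenvalues i = 0
    · simp [h, hr]
    · have : r (hX.1.eigenvalues i) ≠ 0 := by
        simp only [hr]
        rw [Ne, Real.sqrt_eq_zero (Real.sqrt_nonneg _), Real.sqrt_eq_zero (h0 i)]
        exact h
      simp [h, mul_inv_cancel₀ this]
  · rw [fcalc_mul]
    refine fcalc_congr _ fun i => ?_
    by_cases h : hX.1.eigenvalues i = 0
    · simp [h, hr]
    · have : r (hX.1.eigenvalues i) ≠ 0 := by
        simp only [hr]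
        rw [Ne, Real.sqrt_eq_zero (Real.sqrt_nonneg _), Real.sqrt_eq_zero (h0 i)]
        exact h
      simp [h, inv_mul_cancel₀ this]
  · rw [fcalc_mul]
    refine fcalc_congr _ fun i => ?_
    by_cases h : hX.1.eigenvalues i = 0 <;> simp [h]
  · rw [fcalc_mul_self]
    refine fcalc_eq_self _ fun i => ?_
    by_cases h : hX.1.eigenvalues i = 0 <;> simp [h]
  · rw [self_mul_fcalc]
    refine fcalc_eq_self _ fun i => ?_
    by_cases h : hX.1.eigenvalues i = 0 <;> simp [h]
  · intro v hv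
    have h1 : fcalc hX.1 (fun x => if x = 0 then 0 else 1) = fcalc hX.1 (fun x => x⁻¹) * X := by
      rw [fcalc_mul_self]
      refine fcalc_congr _ fun i => ?_
      by_cases h : hX.1.eigenvalues i = 0
      · simp [h]
      · simp [h]
    rw [h1, ← mulVec_mulVec, hv, mulVec_zero]

/-- The trace norm of a positive semidefinite matrix is its trace. -/
theorem traceNorm_of_posSemidef {X : Matrix E E ℂ} (h : X.PosSemidef) :
    traceNorm X = X.trace.re := by
  refine le_antisymm ?_ ?_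
  · obtain ⟨S, hS, hSX⟩ := exists_sqrt h
    refine traceNorm_le_of_forall fun W hW => ?_
    have h1 : (W * X).trace = (Sᴴ * (W * S)).trace := by
      rw [← hSX, hS.1.eq, ← Matrix.mul_assoc, trace_mul_comm]
    have h2 : hs S = X.trace.re := by rw [hs_eq_re, hS.1.eq, hSX]
    rw [h1]
    refine (norm_trace_conjTranspose_mul_le _ _).trans ?_
    calc √(hs S) * √(hs (W * S)) ≤ √(hs S) * √(hs S) :=
          mul_le_mul_of_nonneg_left (Real.sqrt_le_sqrt (hs_mul_le_left hW.2 S))
            (Real.sqrt_nonneg _)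
      _ = X.trace.re := by rw [Real.mul_self_sqrt (hs_nonneg _), h2]
  · exact (Complex.re_le_norm _).trans (norm_trace_le X)

theorem traceNorm_sub_le_of_posSemidef {X Y : Matrix E E ℂ} (hX : X.PosSemidef)
    (hY : Y.PosSemidef) : traceNorm (X - Y) ≤ X.trace.re + Y.trace.re := by
  rw [← traceNorm_of_posSemidef hX, ← traceNorm_of_posSemidef hY]
  exact traceNorm_sub_le X Y

/-- `‖P D P‖₁ ≤ √tr P⁴ · √tr D*D`. -/
theorem traceNorm_conj_le {P : Matrix E E ℂ} (hP : P.PosSemidef) (D : Matrix E E ℂ) :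
    traceNorm (P * D * P) ≤ √(((P * P) * (P * P)).trace.re) * √((Dᴴ * D).trace.re) := by
  refine traceNorm_le_of_forall fun W hW => ?_
  have h1 : (W * (P * D * P)).trace = (P * W * P * D).trace := by
    calc (W * (P * D * P)).trace = ((W * P * D) * P).trace := by congr 1; noncomm_ring
      _ = _ := by rw [trace_mul_comm]; congr 1; noncomm_ring
  have h2 : hs (P * W * P) ≤ ((P * P) * (P * P)).trace.re := by
    have h3 : (hs (P * W * P) : ℂ) = ((P * P) * (Wᴴ * (P * P) * W)).trace := by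
      rw [← trace_conjTranspose_mul_self, conjTranspose_mul, conjTranspose_mul, hP.1.eq]
      calc (P * (Wᴴ * P) * (P * W * P)).trace = (P * (Wᴴ * P * P * W * P)).trace := by
            congr 1; noncomm_ring
        _ = (Wᴴ * P * P * W * P * P).trace := by rw [trace_mul_comm]
        _ = ((Wᴴ * (P * P) * W) * (P * P)).trace := by congr 1; noncomm_ring
        _ = _ := by rw [trace_mul_comm]
    have h4 : hs (P * W * P) ≤ √(hs (P * P)) * √(hs (Wᴴ * (P * P) * W)) := by
      calc hs (P * W * P) = ‖(hs (P * W * P) : ℂ)‖ := by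
            rw [Complex.norm_real, Real.norm_of_nonneg (hs_nonneg _)]
        _ ≤ _ := by rw [h3]; exact norm_trace_mul_le_hs _ _
    have h5 : hs (Wᴴ * (P * P) * W) ≤ hs (P * P) :=
      (hs_mul_le_right hW.1 _).trans (hs_mul_le_left (by
        rw [conjTranspose_conjTranspose]; exact hW.1) _)
    have h6 : hs (P * P) = ((P * P) * (P * P)).trace.re := by
      rw [hs_eq_re, conjTranspose_mul, hP.1.eq]
    calc hs (P * W * P) ≤ √(hs (P * P)) * √(hs (P * P)) :=
          h4.trans (mul_le_mul_of_nonneg_left (Real.sqrt_le_sqrt h5) (Real.sqrt_nonneg _))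
      _ = _ := by rw [Real.mul_self_sqrt (hs_nonneg _), h6]
  rw [h1]
  refine (norm_trace_mul_le_hs _ _).trans ?_
  rw [← hs_eq_re D]
  exact mul_le_mul_of_nonneg_right (Real.sqrt_le_sqrt h2) (Real.sqrt_nonneg _)

end Vale.Agent.P372
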