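import Mathlib

/-! Linear algebra of unextendible product bases in `ℂ^d ⊗ ℂ^3`: there are always two members
`a i ⊗ b i`, `a j ⊗ b j` for which the off-diagonal block of the complementary projection does not
vanish. -/

open Matrix
open scoped ComplexOrder

namespace Vale.Agent.P372

namespace UPB

/-- Inner product, antilinear in the first argument. -/
def ip {n : Type} [Fintype n] (u v : n → ℂ) : ℂ := star u ⬝ᵥ v

section ip

variable {n : Type} [Fintype n]

theorem ip_def (u v : n → ℂ) : ip u v = ∑ i, star (u i) * v i := rfl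

theorem ip_star (u v : n → ℂ) : star (ip u v) = ip v u := by
  simp only [ip_def, star_sum, star_mul, star_star]

theorem ip_eq_zero_symm {u v : n → ℂ} (h : ip u v = 0) : ip v u = 0 := by
  rw [← ip_star, h, star_zero]

theorem ip_smul_right (c : ℂ) (u v : n → ℂ) : ip u (c • v) = c * ip u v := by
  simp only [ip, dotProduct_smul, smul_eq_mul]

theorem ip_smul_left (c : ℂ) (u v : n → ℂ) : ip (c • u) v = star c * ip u v := by
  rw [← ip_star, ip_smul_right, star_mul, ip_star, mul_comm]

theorem ip_zero_right (u : n → ℂ) : ip u 0 = 0 := by simp [ip]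

theorem ip_self_eq_zero {u : n → ℂ} (h : ip u u = 0) : u = 0 := dotProduct_star_self_eq_zero.mp (by
  rw [← h, ip, dotProduct_comm])

theorem ip_self (u : n → ℂ) : ip u u = ((∑ i, ‖u i‖ ^ 2 : ℝ) : ℂ) := by
  rw [ip_def]
  push_cast
  refine Finset.sum_congr rfl fun i _ => ?_
  rw [RCLike.star_def, Complex.conj_mul']

theorem ne_zero_of_ip_self {u : n → ℂ} (h : ip u u = 1) : u ≠ 0 := by
  rintro rfl
  rw [ip_zero_right] at h
  exact zero_ne_one h

theorem vmv_mulVec (u v w : n → ℂ) : vecMulVec u (star v) *ᵥ w = ip v w • u := by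
  rw [vecMulVec_mulVec, ip]
  ext i
  simp [mul_comm]

end ip

/-- `u` and `v` span the same line (for unit vectors). -/
def par {n : Type} (u v : n → ℂ) : Prop := vecMulVec u (star u) = vecMulVec v (star v)

section par

variable {n : Type} [Fintype n]

theorem par_refl (u : n → ℂ) : par u u := rfl

theorem par_symm {u v : n → ℂ} (h : par u v) : par v u := Eq.symm h

theorem par_trans {u v w : n → ℂ} (h : par u v) (h' : par v w) : par u w := Eq.trans h h'

theorem par_ip {u v w : n → ℂ} (h : par u v) (hw : ip v w = 0) (hu : u ≠ 0) : ip u w = 0 := by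
  have h1 : vecMulVec u (star u) *ᵥ w = 0 := by
    rw [h, vmv_mulVec, hw, zero_smul]
  rw [vmv_mulVec] at h1
  exact (smul_eq_zero.mp h1).resolve_right hu

theorem par_iff_ip {u v w : n → ℂ} (h : par u v) (hu : u ≠ 0) (hv : v ≠ 0) :
    ip u w = 0 ↔ ip v w = 0 :=
  ⟨fun hw => par_ip (par_symm h) hw hv, fun hw => par_ip h hw hu⟩

theorem par_of_smul {u v : n → ℂ} {c : ℂ} (hc : star c * c = 1) (h : u = c • v) : par u v := by
  rw [par, h]
  ext i j
  simp only [vecMulVec_apply, Pi.smul_apply, Pi.star_apply, smul_eq_mul, star_mul]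
  linear_combination (v i * star (v j)) * hc

theorem par_of_smul_unit {u v : n → ℂ} {c : ℂ} (hu : ip u u = 1) (hv : ip v v = 1)
    (h : u = c • v) : par u v := by
  refine par_of_smul ?_ h
  rw [h, ip_smul_left, ip_smul_right, hv, mul_one] at hu
  exact hu

theorem ip_ne_zero_of_par {u v : n → ℂ} (hu : ip u u = 1) (hv : ip v v = 1) (h : par u v) :
    ip u v ≠ 0 := by
  intro h0
  have := (par_iff_ip (w := v) h (ne_zero_of_ip_self hu) (ne_zero_of_ip_self hv)).mp h0
  rw [hv] at this
  exact one_ne_zero this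

/-- for parallel unit vectors, `|⟨u,v⟩|² = 1` -/
theorem ip_mul_ip_of_par {u v : n → ℂ} (hu : ip u u = 1) (hv : ip v v = 1) (h : par u v) :
    ip v u * ip u v = 1 := by
  have h1 : vecMulVec u (star u) *ᵥ v = v := by
    rw [h, vmv_mulVec, hv, one_smul]
  have h2 : ip v (vecMulVec u (star u) *ᵥ v) = ip v v := by rw [h1]
  rw [vmv_mulVec, ip_smul_right, hv] at h2
  rw [mul_comm]; exact h2

end par

section three

theorem cross_ne_zero {u v : Fin 3 → ℂ} (hu : ip u u = 1) (hv : ip v v = 1)
    (huv : ¬ par u v) : star u ⨯₃ star v ≠ 0 := by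
  intro h0
  apply huv
  have h1 : u ⨯₃ (star u ⨯₃ star v) = 0 := by rw [h0, map_zero]
  rw [cross_cross_eq_smul_sub_smul'] at h1
  have h2 : star u ⬝ᵥ u = 1 := hu
  rw [h2, one_smul] at h1
  have h3 : v = (star (u ⬝ᵥ star v)) • u := by
    have h4 := congrArg star (sub_eq_zero.mp h1)
    rw [star_smul, star_star, star_star] at h4
    exact h4.symm
  exact par_symm (par_of_smul_unit hv hu h3)

/-- A unit vector orthogonal to two given linearly independent vectors of `ℂ^3`. -/
theorem exists_normal' {u v : Fin 3 → ℂ} (huv : star u ⨯₃ star v ≠ 0) :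
    ∃ w : Fin 3 → ℂ, ip w w = 1 ∧ ip u w = 0 ∧ ip v w = 0 ∧
      ∀ x : Fin 3 → ℂ, ip u x = 0 → ip v x = 0 → ∃ c : ℂ, x = c • w := by
  set n : Fin 3 → ℂ := star u ⨯₃ star v with hn
  have hn0 : n ≠ 0 := huv
  have hun : ip u n = 0 := dot_self_cross _ _
  have hvn : ip v n = 0 := dot_cross_self _ _
  have hx : ∀ x : Fin 3 → ℂ, ip u x = 0 → ip v x = 0 → ∃ c : ℂ, x = c • n := by
    intro x h1 h2
    have h3 : x ⨯₃ (star u ⨯₃ star v) = 0 := by
      rw [cross_cross_eq_smul_sub_smul']
      have h4 : x ⬝ᵥ star v = 0 := by rw [dotProduct_comm]; exact h2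
      have h5 : star u ⬝ᵥ x = 0 := h1
      rw [h4, h5]; simp
    rw [← hn] at h3
    have h6 : star n ⨯₃ (x ⨯₃ n) = 0 := by rw [h3, map_zero]
    rw [cross_cross_eq_smul_sub_smul'] at h6
    have h7 : star n ⬝ᵥ n ≠ 0 := fun h => hn0 (ip_self_eq_zero h)
    refine ⟨(star n ⬝ᵥ n)⁻¹ * (x ⬝ᵥ star n), ?_⟩
    have h8 := sub_eq_zero.mp h6
    rw [mul_smul, ← h8, smul_smul, inv_mul_cancel₀ h7, one_smul]
  -- normalise
  set r : ℝ := ∑ i, ‖n i‖ ^ 2 with hr
  have hrn : ip n n = (r : ℂ) := ip_self n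
  have hr0 : 0 < r := by
    have h1 : 0 ≤ r := Finset.sum_nonneg fun _ _ => by positivity
    rcases h1.lt_or_eq with h2 | h2
    · exact h2
    · exact absurd (ip_self_eq_zero (by rw [hrn, ← h2]; simp)) hn0
  have hs : (√r) ≠ 0 := (Real.sqrt_pos.mpr hr0).ne'
  refine ⟨((√r : ℝ) : ℂ)⁻¹ • n, ?_, ?_, ?_, ?_⟩
  · rw [ip_smul_left, ip_smul_right, hrn]
    have : ((√r : ℝ) : ℂ) * ((√r : ℝ) : ℂ) = r := by
      rw [← Complex.ofReal_mul, Real.mul_self_sqrt hr0.le]
    have h0 : ((√r : ℝ) : ℂ) ≠ 0 := by exact_mod_cast hs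
    rw [← this, star_inv₀, RCLike.star_def, Complex.conj_ofReal]
    field_simp
  · rw [ip_smul_right, hun, mul_zero]
  · rw [ip_smul_right, hvn, mul_zero]
  · intro x h1 h2
    obtain ⟨c, hc⟩ := hx x h1 h2
    refine ⟨c * ((√r : ℝ) : ℂ), ?_⟩
    rw [smul_smul, mul_assoc, mul_inv_cancel₀ (by exact_mod_cast hs), mul_one, hc]

/-- A unit vector orthogonal to two given non-parallel unit vectors of `ℂ^3`. -/
theorem exists_normal {u v : Fin 3 → ℂ} (hu : ip u u = 1) (hv : ip v v = 1) (huv : ¬ par u v) :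
    ∃ w : Fin 3 → ℂ, ip w w = 1 ∧ ip u w = 0 ∧ ip v w = 0 ∧
      ∀ x : Fin 3 → ℂ, ip u x = 0 → ip v x = 0 → ∃ c : ℂ, x = c • w :=
  exists_normal' (cross_ne_zero hu hv huv)

/-- A nonzero vector orthogonal to one given vector of `ℂ^3`. -/
theorem exists_orth (u : Fin 3 → ℂ) : ∃ w : Fin 3 → ℂ, w ≠ 0 ∧ ip u w = 0 := by
  by_cases h0 : u 0 = 0
  · refine ⟨Pi.single 0 1, by simp, ?_⟩
    simp [ip, h0]
  · refine ⟨![-star (u 1), star (u 0), 0], ?_, ?_⟩
    · intro h
      have := congrFun h 1
      simp at this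
      exact h0 this
    · simp [ip_def, Fin.sum_univ_three]
      ring

end three

section proj

variable {A : Type} [Fintype A] [DecidableEq A]

omit [DecidableEq A] in
/-- If the product of two orthogonal projections is idempotent, they commute. -/
theorem comm_of_idem {p q : Matrix A A ℂ} (hp : pᴴ = p) (hpp : p * p = p) (hq : qᴴ = q)
    (hqq : q * q = q) (h : p * q * (p * q) = p * q) : p * q = q * p := by
  have h' : q * p * (q * p) = q * p := by
    have := congrArg conjTranspose h
    rw [conjTranspose_mul, conjTranspose_mul, hp, hq] at this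
    exact this
  have h1 : ((p * q - q * p)ᴴ * (p * q - q * p)).trace = 0 := by
    have e1 : (p * q - q * p)ᴴ = q * p - p * q := by
      rw [conjTranspose_sub, conjTranspose_mul, conjTranspose_mul, hp, hq]
    have e2 : (q * p - p * q) * (p * q - q * p)
        = q * (p * p) * q - q * p * (q * p) - p * q * (p * q) + p * (q * q) * p := by
      noncomm_ring
    rw [e1, e2, hpp, hqq, h, h', trace_add, trace_sub, trace_sub]
    have e3 : (q * p * q).trace = (q * p).trace := by
      rw [trace_mul_comm, ← Matrix.mul_assoc, hqq]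
    have e4 : (p * q * p).trace = (p * q).trace := by
      rw [trace_mul_comm, ← Matrix.mul_assoc, hpp]
    rw [e3, e4]
    ring
  rw [trace_conjTranspose_mul_self_eq_zero_iff] at h1
  exact sub_eq_zero.mp h1

omit [DecidableEq A] in
theorem three_proj_idem {p q r : Matrix A A ℂ} (h1 : p * q = p * r * q)
    (h2 : p * r = p * q * r) (h3 : r * q = r * p * q) (h4 : q * p = q * r * p) :
    p * q * (p * q) = p * q := by
  symm
  calc p * q = p * r * q := h1
    _ = p * q * r * q := by rw [h2]
    _ = p * q * (r * q) := by rw [Matrix.mul_assoc]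
    _ = p * q * (r * p * q) := by rw [h3]
    _ = p * (q * r * p) * q := by simp only [Matrix.mul_assoc]
    _ = p * (q * p) * q := by rw [← h4]
    _ = p * q * (p * q) := by simp only [Matrix.mul_assoc]

omit [DecidableEq A] in
/-- The algebra of three orthogonal projections with `pq = prq` and cyclically. -/
theorem three_proj {p q r : Matrix A A ℂ} (hp : pᴴ = p) (hpp : p * p = p) (hq : qᴴ = q)
    (hqq : q * q = q) (hr : rᴴ = r) (hrr : r * r = r) (h1 : p * q = p * r * q)
    (h2 : q * r = q * p * r) (h3 : r * p = r * q * p) :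
    p * q = q * p ∧ p * q = p * r ∧ p * q = q * r := by
  have h1' : q * p = q * r * p := by
    have := congrArg conjTranspose h1
    rw [conjTranspose_mul, conjTranspose_mul, conjTranspose_mul, hp, hq, hr] at this
    rw [this, Matrix.mul_assoc]
  have h2' : r * q = r * p * q := by
    have := congrArg conjTranspose h2
    rw [conjTranspose_mul, conjTranspose_mul, conjTranspose_mul, hp, hq, hr] at this
    rw [this, Matrix.mul_assoc]
  have h3' : p * r = p * q * r := by
    have := congrArg conjTranspose h3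
    rw [conjTranspose_mul, conjTranspose_mul, conjTranspose_mul, hp, hq, hr] at this
    rw [this, Matrix.mul_assoc]
  have c1 : p * q = q * p := comm_of_idem hp hpp hq hqq (three_proj_idem h1 h3' h2' h1')
  have c2 : q * r = r * q := comm_of_idem hq hqq hr hrr (three_proj_idem h2 h1' h3' h2')
  have e1 : p * q = p * q * r := by
    calc p * q = p * r * q := h1
      _ = p * (r * q) := Matrix.mul_assoc _ _ _
      _ = p * (q * r) := by rw [c2]
      _ = p * q * r := (Matrix.mul_assoc _ _ _).symm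
  refine ⟨c1, ?_, ?_⟩
  · rw [h3', ← e1]
  · rw [h2, ← c1, ← e1]

end proj

section main

variable {A I : Type} [Fintype A] [DecidableEq A] [Fintype I]

/-- The sum of the projections on the vectors `a k` with `k` in `s`. -/
def Q (a : I → A → ℂ) (s : Finset I) : Matrix A A ℂ := ∑ k ∈ s, vecMulVec (a k) (star (a k))

omit [DecidableEq A] [Fintype I] in
theorem Q_conjTranspose (a : I → A → ℂ) (s : Finset I) : (Q a s)ᴴ = Q a s := by
  rw [Q, conjTranspose_sum]
  refine Finset.sum_congr rfl fun k _ => ?_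
  ext x y
  simp [vecMulVec_apply, conjTranspose_apply, mul_comm]

omit [DecidableEq A] [Fintype I] in
theorem Q_mulVec (a : I → A → ℂ) (s : Finset I) (v : A → ℂ) :
    Q a s *ᵥ v = ∑ k ∈ s, ip (a k) v • a k := by
  rw [Q, sum_mulVec]
  exact Finset.sum_congr rfl fun k _ => vmv_mulVec _ _ _

omit [DecidableEq A] [Fintype I] in
theorem Q_mul_M_mul_Q (a : I → A → ℂ) (s t : Finset I) (M : Matrix A A ℂ) :
    Q a s * M * Q a t
      = ∑ k ∈ s, ∑ l ∈ t, ip (a k) (M *ᵥ a l) • vecMulVec (a k) (star (a l)) := by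
  rw [Q, Q, Finset.sum_mul, Finset.sum_mul]
  refine Finset.sum_congr rfl fun k _ => ?_
  rw [Finset.mul_sum]
  refine Finset.sum_congr rfl fun l _ => ?_
  rw [Matrix.mul_assoc, mul_vecMulVec, vecMulVec_mul_vecMulVec, vecMulVec_smul]
  rfl

omit [Fintype I] in
theorem Q_mul_Q (a : I → A → ℂ) (s t : Finset I) :
    Q a s * Q a t = ∑ k ∈ s, ∑ l ∈ t, ip (a k) (a l) • vecMulVec (a k) (star (a l)) := by
  have := Q_mul_M_mul_Q a s t 1
  rw [Matrix.mul_one] at this
  rw [this]
  simp only [one_mulVec]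

omit [Fintype I] in
theorem Q_disjoint (a : I → A → ℂ) (s t : Finset I)
    (h : ∀ k ∈ s, ∀ l ∈ t, ip (a k) (a l) = 0) : Q a s * Q a t = 0 := by
  rw [Q_mul_Q]
  exact Finset.sum_eq_zero fun k hk => Finset.sum_eq_zero fun l hl => by
    rw [h k hk l hl, zero_smul]

omit [Fintype I] in
theorem Q_idem (a : I → A → ℂ) (s : Finset I) (h1 : ∀ k ∈ s, ip (a k) (a k) = 1)
    (h : ∀ k ∈ s, ∀ l ∈ s, k ≠ l → ip (a k) (a l) = 0) : Q a s * Q a s = Q a s := by
  rw [Q_mul_Q, Q]
  refine Finset.sum_congr rfl fun k hk => ?_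
  rw [Finset.sum_eq_single k]
  · rw [h1 k hk, one_smul]
  · intro l hl hlk
    rw [h k hk l hl (Ne.symm hlk), zero_smul]
  · intro h'; exact absurd hk h'

omit [DecidableEq A] [Fintype I] in
theorem Q_union [DecidableEq I] (a : I → A → ℂ) (s t : Finset I) (h : Disjoint s t) :
    Q a (s ∪ t) = Q a s + Q a t := Finset.sum_union h

variable {a : I → A → ℂ} {b : I → Fin 3 → ℂ}

open Classical in
/-- Indices `k` with `b k` parallel to `b i`. -/
noncomputable def C (b : I → Fin 3 → ℂ) (i : I) : Finset I :=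
  Finset.univ.filter fun k => par (b k) (b i)

open Classical in
/-- Indices `k` with `b k` orthogonal to `b i` and `b j`. -/
noncomputable def T (b : I → Fin 3 → ℂ) (i j : I) : Finset I :=
  Finset.univ.filter fun k => ip (b i) (b k) = 0 ∧ ip (b j) (b k) = 0

theorem mem_C {i k : I} : k ∈ C b i ↔ par (b k) (b i) := by simp [C]

theorem mem_T {i j k : I} : k ∈ T b i j ↔ ip (b i) (b k) = 0 ∧ ip (b j) (b k) = 0 := by simp [T]

theorem T_comm (i j : I) : T b i j = T b j i := by
  ext k; rw [mem_T, mem_T, and_comm]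

theorem T_congr (hb : ∀ i, ip (b i) (b i) = 1) {i j i' j' : I} (hi : par (b i') (b i))
    (hj : par (b j') (b j)) : T b i' j' = T b i j := by
  ext k
  rw [mem_T, mem_T, par_iff_ip hi (ne_zero_of_ip_self (hb _)) (ne_zero_of_ip_self (hb _)),
    par_iff_ip hj (ne_zero_of_ip_self (hb _)) (ne_zero_of_ip_self (hb _))]

theorem C_congr {i i' : I} (hi : par (b i') (b i)) : C b i' = C b i := by
  ext k
  rw [mem_C, mem_C]
  exact ⟨fun h => par_trans h hi, fun h => par_trans h (par_symm hi)⟩

/-- two vectors orthogonal to the same two non-parallel ones are parallel -/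
theorem par_of_mem_T (hb : ∀ i, ip (b i) (b i) = 1) {i j k l : I} (hij : ¬ par (b i) (b j))
    (hk : k ∈ T b i j) (hl : l ∈ T b i j) : par (b k) (b l) := by
  rw [mem_T] at hk hl
  obtain ⟨w, hw, -, -, hx⟩ := exists_normal (hb i) (hb j) hij
  obtain ⟨c, hc⟩ := hx (b k) hk.1 hk.2
  obtain ⟨d, hd⟩ := hx (b l) hl.1 hl.2
  exact par_trans (par_of_smul_unit (hb k) hw hc) (par_symm (par_of_smul_unit (hb l) hw hd))

theorem T_eq_C (hb : ∀ i, ip (b i) (b i) = 1) {i j k : I} (hij : ¬ par (b i) (b j))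
    (hk : k ∈ T b i j) : T b i j = C b k := by
  ext l
  rw [mem_C]
  refine ⟨fun hl => par_of_mem_T hb hij hl hk, fun hl => ?_⟩
  rw [mem_T] at hk ⊢
  refine ⟨?_, ?_⟩
  · exact ip_eq_zero_symm ((par_iff_ip hl (ne_zero_of_ip_self (hb _))
      (ne_zero_of_ip_self (hb _))).mpr (ip_eq_zero_symm hk.1))
  · exact ip_eq_zero_symm ((par_iff_ip hl (ne_zero_of_ip_self (hb _))
      (ne_zero_of_ip_self (hb _))).mpr (ip_eq_zero_symm hk.2))

theorem not_par_of_ip (hb : ∀ i, ip (b i) (b i) = 1) {i j : I} (h : ip (b i) (b j) = 0) :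
    ¬ par (b i) (b j) := fun h' => ip_ne_zero_of_par (hb i) (hb j) h' h

section orth

variable (ha : ∀ i, ip (a i) (a i) = 1) (hb : ∀ i, ip (b i) (b i) = 1)
  (horth : ∀ i j, i ≠ j → ip (a i) (a j) * ip (b i) (b j) = 0)

include ha hb horth

theorem QC_idem (i : I) : Q a (C b i) * Q a (C b i) = Q a (C b i) := by
  refine Q_idem a _ (fun k _ => ha k) fun k hk l hl hkl => ?_
  rw [mem_C] at hk hl
  exact (mul_eq_zero.mp (horth k l hkl)).resolve_right
    (ip_ne_zero_of_par (hb k) (hb l) (par_trans hk (par_symm hl)))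

/-- for non-parallel, non-orthogonal classes the projections are orthogonal -/
theorem QC_mul_eq_zero {i j : I} (hij : ¬ par (b i) (b j)) (h : ip (b i) (b j) ≠ 0) :
    Q a (C b i) * Q a (C b j) = 0 := by
  refine Q_disjoint a _ _ fun k hk l hl => ?_
  rw [mem_C] at hk hl
  have hkl : k ≠ l := by
    rintro rfl
    exact hij (par_trans (par_symm hk) hl)
  refine (mul_eq_zero.mp (horth k l hkl)).resolve_right fun h0 => h ?_
  have h1 : ip (b i) (b l) = 0 :=
    (par_iff_ip hk (ne_zero_of_ip_self (hb _)) (ne_zero_of_ip_self (hb _))).mp h0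
  exact ip_eq_zero_symm ((par_iff_ip hl (ne_zero_of_ip_self (hb _))
    (ne_zero_of_ip_self (hb _))).mp (ip_eq_zero_symm h1))

theorem QC_mul_Q_eq_zero {i : I} (s : Finset I) (h1 : ∀ l ∈ s, ¬ par (b l) (b i))
    (h2 : ∀ l ∈ s, ip (b i) (b l) ≠ 0) : Q a (C b i) * Q a s = 0 := by
  refine Q_disjoint a _ _ fun k hk l hl => ?_
  rw [mem_C] at hk
  have hkl : k ≠ l := by
    rintro rfl
    exact h1 k hl hk
  refine (mul_eq_zero.mp (horth k l hkl)).resolve_right fun h0 => h2 l hl ?_
  exact (par_iff_ip hk (ne_zero_of_ip_self (hb _)) (ne_zero_of_ip_self (hb _))).mp h0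

theorem ip_QC (l : I) (v : A → ℂ) : ip (a l) (Q a (C b l) *ᵥ v) = ip (a l) v := by
  rw [Q_mulVec]
  have h1 : ip (a l) (∑ k ∈ C b l, ip (a k) v • a k)
      = ∑ k ∈ C b l, ip (a k) v * ip (a l) (a k) := by
    rw [ip, dotProduct_sum]
    refine Finset.sum_congr rfl fun k _ => ?_
    rw [dotProduct_smul, smul_eq_mul, ip]
    rfl
  rw [h1, Finset.sum_eq_single l]
  · rw [ha l, mul_one]
  · intro k hk hkl
    rw [mem_C] at hk
    rw [(mul_eq_zero.mp (horth l k (Ne.symm hkl))).resolve_right
      (ip_ne_zero_of_par (hb l) (hb k) (par_symm hk)), mul_zero]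
  · intro h
    exact absurd (mem_C.mpr (par_refl _)) h

variable (hbad : ∀ i j, ¬ par (b i) (b j) → ip (a j) (a i) = ip (a j) (Q a (T b i j) *ᵥ a i))

include hbad

theorem QC_mul_QC {i j : I} (hij : ¬ par (b i) (b j)) :
    Q a (C b j) * Q a (C b i) = Q a (C b j) * Q a (T b i j) * Q a (C b i) := by
  rw [Q_mul_Q, Q_mul_M_mul_Q]
  refine Finset.sum_congr rfl fun k hk => Finset.sum_congr rfl fun l hl => ?_
  rw [mem_C] at hk hl
  rw [hbad l k (fun h => hij (par_trans (par_trans (par_symm hl) h) hk)), T_congr hb hl hk]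

/-- The key identity: for non-parallel `b i`, `b j`, the operator `e = Q_j Q_i` satisfies
`e Z = 3 e`, where `Z` is the sum of all projections. -/
theorem QC_mul_QC_mul_Z {i j : I} (hij : ¬ par (b i) (b j)) :
    Q a (C b j) * Q a (C b i) * Q a Finset.univ = (3 : ℂ) • (Q a (C b j) * Q a (C b i)) := by
  classical
  by_cases hzero : Q a (C b j) * Q a (C b i) = 0
  · rw [hzero, Matrix.zero_mul, smul_zero]
  have hort : ip (b i) (b j) = 0 := by
    by_contra h
    apply hzero
    have := QC_mul_eq_zero ha hb horth (i := j) (j := i) (fun h' => hij (par_symm h'))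
      (fun h' => h (ip_eq_zero_symm h'))
    exact this
  have hT : (T b i j).Nonempty := by
    rw [Finset.nonempty_iff_ne_empty]
    intro h
    apply hzero
    rw [QC_mul_QC ha hb horth hbad hij, h]
    simp [Q]
  obtain ⟨k, hk⟩ := hT
  have hTk : T b i j = C b k := T_eq_C hb hij hk
  have hk' := mem_T.mp hk
  have hik : ¬ par (b i) (b k) := not_par_of_ip hb hk'.1
  have hjk : ¬ par (b j) (b k) := not_par_of_ip hb hk'.2
  have hTik : T b i k = C b j :=
    T_eq_C hb hik (mem_T.mpr ⟨hort, ip_eq_zero_symm hk'.2⟩)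
  have hTjk : T b j k = C b i :=
    T_eq_C hb hjk (mem_T.mpr ⟨ip_eq_zero_symm hort, ip_eq_zero_symm hk'.1⟩)
  set p := Q a (C b i) with hp
  set q := Q a (C b j) with hq
  set r := Q a (C b k) with hr
  have hqp : q * p = q * r * p := by rw [QC_mul_QC ha hb horth hbad hij, hTk]
  have hpr : p * r = p * q * r := by
    have := QC_mul_QC ha hb horth hbad (i := k) (j := i) (fun h => hik (par_symm h))
    rwa [T_comm, hTik] at this
  have hrq : r * q = r * p * q := by
    have := QC_mul_QC ha hb horth hbad (i := j) (j := k) hjk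
    rwa [hTjk] at this
  have hpp : p * p = p := QC_idem ha hb horth i
  have hqq : q * q = q := QC_idem ha hb horth j
  have hrr : r * r = r := QC_idem ha hb horth k
  obtain ⟨c1, c2, c3⟩ := three_proj (p := q) (q := p) (r := r) (Q_conjTranspose _ _) hqq
    (Q_conjTranspose _ _) hpp (Q_conjTranspose _ _) hrr hqp hpr hrq
  -- c1 : q p = p q, c2 : q p = q r, c3 : q p = p r
  have hdec : Q a Finset.univ = p + q + r + Q a (Finset.univ.filter fun l =>
      ¬ par (b l) (b i) ∧ ¬ par (b l) (b j) ∧ ¬ par (b l) (b k)) := by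
    rw [hp, hq, hr, ← Q_union, ← Q_union, ← Q_union]
    · congr 1
      ext l
      simp only [Finset.mem_univ, Finset.mem_union, mem_C, Finset.mem_filter, true_and, true_iff]
      tauto
    · rw [Finset.disjoint_left]
      intro l h1 h2
      simp only [Finset.mem_union, mem_C, Finset.mem_filter, Finset.mem_univ, true_and] at h1 h2
      tauto
    · rw [Finset.disjoint_left]
      intro l h1 h2
      simp only [Finset.mem_union, mem_C] at h1 h2
      rcases h1 with h1 | h1
      · exact hik (par_trans (par_symm h1) h2)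
      · exact hjk (par_trans (par_symm h1) h2)
    · rw [Finset.disjoint_left]
      intro l h1 h2
      rw [mem_C] at h1 h2
      exact hij (par_trans (par_symm h1) h2)
  have hrest : q * p * Q a (Finset.univ.filter fun l =>
      ¬ par (b l) (b i) ∧ ¬ par (b l) (b j) ∧ ¬ par (b l) (b k)) = 0 := by
    have hsplit : (Finset.univ.filter fun l =>
        ¬ par (b l) (b i) ∧ ¬ par (b l) (b j) ∧ ¬ par (b l) (b k))
        = (Finset.univ.filter fun l =>
          (¬ par (b l) (b i) ∧ ¬ par (b l) (b j) ∧ ¬ par (b l) (b k)) ∧ ip (b i) (b l) ≠ 0) ∪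
          (Finset.univ.filter fun l =>
          (¬ par (b l) (b i) ∧ ¬ par (b l) (b j) ∧ ¬ par (b l) (b k)) ∧ ip (b i) (b l) = 0) := by
      ext l
      simp only [Finset.mem_union, Finset.mem_filter, Finset.mem_univ, true_and]
      tauto
    rw [hsplit, Q_union, Matrix.mul_add]
    · have h1 : p * Q a (Finset.univ.filter fun l =>
          (¬ par (b l) (b i) ∧ ¬ par (b l) (b j) ∧ ¬ par (b l) (b k)) ∧ ip (b i) (b l) ≠ 0)
          = 0 := by
        refine QC_mul_Q_eq_zero ha hb horth _ (fun l hl => ?_) fun l hl => ?_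
        · exact (Finset.mem_filter.mp hl).2.1.1
        · exact (Finset.mem_filter.mp hl).2.2
      have h2 : q * Q a (Finset.univ.filter fun l =>
          (¬ par (b l) (b i) ∧ ¬ par (b l) (b j) ∧ ¬ par (b l) (b k)) ∧ ip (b i) (b l) = 0)
          = 0 := by
        refine QC_mul_Q_eq_zero ha hb horth _ (fun l hl => ?_) fun l hl => ?_
        · exact (Finset.mem_filter.mp hl).2.1.2.1
        · intro h3
          refine (Finset.mem_filter.mp hl).2.1.2.2 (par_of_mem_T hb hij ?_ hk)
          rw [mem_T]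
          exact ⟨(Finset.mem_filter.mp hl).2.2, h3⟩
      rw [Matrix.mul_assoc, h1, Matrix.mul_zero, zero_add, c1, Matrix.mul_assoc, h2,
        Matrix.mul_zero]
    · rw [Finset.disjoint_left]
      intro l h1 h2
      exact (Finset.mem_filter.mp h1).2.2 (Finset.mem_filter.mp h2).2.2
  rw [hdec, Matrix.mul_add, Matrix.mul_add, Matrix.mul_add, hrest, add_zero]
  have e1 : q * p * p = q * p := by rw [Matrix.mul_assoc, hpp]
  have e2 : q * p * q = q * p := by rw [c1, Matrix.mul_assoc, hqq]
  have e3 : q * p * r = q * p := by rw [c2, Matrix.mul_assoc, hrr]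
  rw [e1, e2, e3]
  module

omit hbad

/-- Members `i`, `j` of an unextendible product basis of `ℂ^d ⊗ ℂ^3` with `b i`, `b j` not parallel
for which `⟨a j, (1 - Q_T) a i⟩ ≠ 0`. -/
theorem exists_nonzero_block
    (hunext : ∀ (α : A → ℂ) (β : Fin 3 → ℂ), (∀ i, ip (a i) α * ip (b i) β = 0) → α = 0 ∨ β = 0)
    (hcard : Fintype.card I < Fintype.card A * 3) :
    ∃ i j, ¬ par (b i) (b j) ∧ ip (a j) (a i) ≠ ip (a j) (Q a (T b i j) *ᵥ a i) := by
  by_contra hcon
  have hbad : ∀ i j, ¬ par (b i) (b j) → ip (a j) (a i) = ip (a j) (Q a (T b i j) *ᵥ a i) := by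
    intro i j hij
    by_contra h
    exact hcon ⟨i, j, hij, h⟩
  set Z := Q a Finset.univ with hZ
  have hZh : Z.IsHermitian := Q_conjTranspose a _
  have htr : Z.trace = (Fintype.card I : ℂ) := by
    rw [hZ, Q, trace_sum]
    simp only [trace_vecMulVec]
    have : ∀ k, a k ⬝ᵥ star (a k) = 1 := fun k => by
      rw [dotProduct_comm]; exact ha k
    simp [this]
  have hex : ∃ x, hZh.eigenvalues x < 3 := by
    by_contra h
    push Not at h
    have h1 : (∑ x, hZh.eigenvalues x : ℝ) = (Fintype.card I : ℝ) := by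
      have h2 := hZh.trace_eq_sum_eigenvalues
      rw [htr] at h2
      have h3 := congrArg Complex.re h2
      simpa using h3.symm
    have h4 : (∑ _x : A, (3 : ℝ)) ≤ ∑ x, hZh.eigenvalues x :=
      Finset.sum_le_sum fun x _ => h x
    rw [h1, Finset.sum_const, Finset.card_univ, nsmul_eq_mul] at h4
    have h5 : (Fintype.card I : ℝ) < (Fintype.card A : ℝ) * 3 := by exact_mod_cast hcard
    linarith
  obtain ⟨x, hx⟩ := hex
  set lam : ℝ := hZh.eigenvalues x with hlam
  set α : A → ℂ := ⇑(hZh.eigenvectorBasis x) with hα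
  have hZα : Z *ᵥ α = (lam : ℂ) • α := by
    have := hZh.mulVec_eigenvectorBasis x
    rw [← hα, ← hlam] at this
    rw [this]
    ext y
    simp
  have hα0 : α ≠ 0 := by
    intro h0
    have h1 := hZh.eigenvectorBasis.orthonormal.1 x
    have h2 : hZh.eigenvectorBasis x = 0 := by
      ext y
      exact congrFun h0 y
    rw [h2, norm_zero] at h1
    exact zero_ne_one h1
  by_cases hall : ∀ i, Q a (C b i) *ᵥ α = 0
  · -- `α` is orthogonal to all `a i`
    have h1 : ∀ i, ip (a i) α = 0 := by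
      intro i
      rw [← ip_QC ha hb horth i α, hall i, ip_zero_right]
    obtain ⟨w, hw0, -⟩ := exists_orth (0 : Fin 3 → ℂ)
    rcases hunext α w (fun i => by rw [h1 i, zero_mul]) with h | h
    · exact hα0 h
    · exact hw0 h
  · push Not at hall
    obtain ⟨i, hi⟩ := hall
    obtain ⟨w, hw0, hw⟩ := exists_orth (b i)
    have hmain : ∀ l, ip (a l) (Q a (C b i) *ᵥ α) * ip (b l) w = 0 := by
      intro l
      by_cases hl : par (b l) (b i)
      · rw [par_ip hl hw (ne_zero_of_ip_self (hb l)), mul_zero]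
      · have h1 : (Q a (C b l) * Q a (C b i)) *ᵥ α = 0 := by
          have h2 : (Q a (C b l) * Q a (C b i) * Q a Finset.univ) *ᵥ α
              = ((3 : ℂ) • (Q a (C b l) * Q a (C b i))) *ᵥ α := by
            rw [QC_mul_QC_mul_Z ha hb horth hbad (i := i) (j := l) (fun h => hl (par_symm h))]
          rw [← mulVec_mulVec, ← hZ, hZα, mulVec_smul, smul_mulVec] at h2
          have h3 : ((lam : ℂ) - 3) • ((Q a (C b l) * Q a (C b i)) *ᵥ α) = 0 := by
            rw [sub_smul, h2, sub_self]
          refine (smul_eq_zero.mp h3).resolve_left ?_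
          intro h4
          have h5 := congrArg Complex.re h4
          simp at h5
          linarith
        have h6 : ip (a l) (Q a (C b i) *ᵥ α) = 0 := by
          rw [← ip_QC ha hb horth l (Q a (C b i) *ᵥ α), mulVec_mulVec, h1, ip_zero_right]
        rw [h6, zero_mul]
    rcases hunext (Q a (C b i) *ᵥ α) w hmain with h | h
    · exact hi h
    · exact hw0 h

end orth

end main

end UPB

end Vale.Agent.P372
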