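import Vale.Agent.P372.UPBDefs

open Matrix

namespace Vale.Agent.P372

/-- The product vectors `a i ⊗ b i` form an orthonormal family to which no nonzero product vector
is orthogonal (an unextendible product basis, if there are fewer than `dim A * dim B` of them). -/
structure IsUPB {I A B : Type} [Fintype A] [Fintype B] (a : I → A → ℂ) (b : I → B → ℂ) :
    Prop where
  /-- the vectors `a i` are unit vectors -/
  unit_left : ∀ i, star (a i) ⬝ᵥ a i = 1
  /-- the vectors `b i` are unit vectors -/
  unit_right : ∀ i, star (b i) ⬝ᵥ b i = 1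
  /-- orthogonality -/
  orth : ∀ i j, i ≠ j → star (prodVec (a i) (b i)) ⬝ᵥ prodVec (a j) (b j) = 0
  /-- unextendibility -/
  unext : ∀ (α : A → ℂ) (β : B → ℂ), (∀ i, star (prodVec (a i) (b i)) ⬝ᵥ prodVec α β = 0) →
    prodVec α β = 0

end Vale.Agent.P372
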