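import Vale.Agent.P372.T1
import Vale.Agent.P372.UPBAlg
import Vale.Agent.P372.UPBDefs2
import Vale.Agent.P372.BlockPos

/-! Positive distillable key for states with two product vectors in the kernel and no product
vector in the range, and for all states built from unextendible product bases of `ℂ^d ⊗ ℂ^3`. -/

open Matrix Kronecker
open scoped ComplexOrder

namespace Vale.Agent.P372

variable {A B E : Type} [Fintype A] [DecidableEq A] [Fintype B] [DecidableEq B] [Fintype E]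
  [DecidableEq E]

namespace UPB

open T1

omit [Fintype A] [DecidableEq A] [Fintype B] [DecidableEq B] in
theorem vmv_kronecker (a a' : A → ℂ) (b b' : B → ℂ) :
    vecMulVec a (star a') ⊗ₖ vecMulVec b (star b')
      = vecMulVec (prodVec a b) (star (prodVec a' b')) := by
  ext p q
  simp only [kroneckerMap_apply, vecMulVec_apply, prodVec, Pi.star_apply, star_mul]
  ring

theorem eve_vmv (Ψ : Matrix (A × B) E ℂ) (a a' : A → ℂ) (b b' : B → ℂ) :
    eve Ψ (vecMulVec a (star a')) (vecMulVec b (star b'))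
      = (vecMulVec (Ψᴴ *ᵥ prodVec a b) (star (Ψᴴ *ᵥ prodVec a' b')))ᵀ := by
  rw [eve_eq, vmv_kronecker, mul_vecMulVec, vecMulVec_mul, star_mulVec, conjTranspose_conjTranspose]

theorem eve_vmv_trace (Ψ : Matrix (A × B) E ℂ) (a a' : A → ℂ) (b b' : B → ℂ) :
    (eve Ψ (vecMulVec a (star a')) (vecMulVec b (star b'))).trace
      = ip (prodVec a' b') ((Ψ * Ψᴴ) *ᵥ prodVec a b) := by
  rw [eve_vmv, trace_transpose, trace_vecMulVec, dotProduct_comm, star_mulVec,
    conjTranspose_conjTranspose, ip, ← mulVec_mulVec, ← dotProduct_mulVec]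

theorem posSemidef_vmv (u : B → ℂ) : (vecMulVec u (star u)).PosSemidef :=
  posSemidef_vecMulVec_self_star u

theorem transpose_mulVec_eq_zero {M : Matrix E E ℂ} (hM : Mᴴ = M) {v : E → ℂ}
    (h : Mᵀ *ᵥ v = 0) : M *ᵥ star v = 0 := by
  have h1 := congrArg star h
  rw [mulVec_transpose, star_vecMul, hM, star_zero] at h1
  exact h1

theorem one_kronecker_mulVec (M : Matrix B B ℂ) (ψ : A × B → ℂ) (x : A) (y : B) :
    (((1 : Matrix A A ℂ) ⊗ₖ M) *ᵥ ψ) (x, y) = (M *ᵥ fun y' => ψ (x, y')) y := by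
  simp only [mulVec, dotProduct, kroneckerMap_apply, Fintype.sum_prod_type]
  rw [Finset.sum_eq_single x]
  · simp
  · intro x' _ hx'
    refine Finset.sum_eq_zero fun y' _ => ?_
    rw [one_apply_ne (Ne.symm hx'), zero_mul, zero_mul]
  · intro h; exact absurd (Finset.mem_univ x) h

theorem quad_fiber (ψ : A × B → ℂ) (b : B → ℂ) :
    star ψ ⬝ᵥ (((1 : Matrix A A ℂ) ⊗ₖ vecMulVec b (star b)) *ᵥ ψ)
      = ((∑ x, ‖ip b (fun y => ψ (x, y))‖ ^ 2 : ℝ) : ℂ) := by
  push_cast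
  rw [dotProduct, Fintype.sum_prod_type]
  refine Finset.sum_congr rfl fun x _ => ?_
  have h1 : ∀ y, (((1 : Matrix A A ℂ) ⊗ₖ vecMulVec b (star b)) *ᵥ ψ) (x, y)
      = ip b (fun y' => ψ (x, y')) * b y := by
    intro y
    rw [one_kronecker_mulVec, vmv_mulVec]
    rfl
  simp only [h1]
  rw [← Complex.conj_mul', ← RCLike.star_def, ip_star, ip_def (fun y' => ψ (x, y')) b,
    Finset.sum_mul]
  refine Finset.sum_congr rfl fun y _ => ?_
  simp only [Pi.star_apply]
  ring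

/-- The kernel of `Ψᴴ (1 ⊗ (|b⟩⟨b| + |b'⟩⟨b'|)) Ψ`. -/
theorem ip_fiber_eq_zero (Ψ : Matrix (A × B) E ℂ) (b b' : B → ℂ) (v : E → ℂ)
    (h : eve Ψ 1 (vecMulVec b (star b) + vecMulVec b' (star b')) *ᵥ v = 0) (x : A) :
    ip b (fun y => (Ψ *ᵥ star v) (x, y)) = 0 ∧ ip b' (fun y => (Ψ *ᵥ star v) (x, y)) = 0 := by
  have hM : (eve Ψ 1 (vecMulVec b (star b) + vecMulVec b' (star b')))ᴴ
      = eve Ψ 1 (vecMulVec b (star b) + vecMulVec b' (star b')) := by
    rw [eve_conjTranspose, conjTranspose_one, conjTranspose_add, conjTranspose_vecMulVec,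
      conjTranspose_vecMulVec, star_star, star_star]
  rw [eve_eq] at h hM
  have hM' : (Ψᴴ * ((1 : Matrix A A ℂ) ⊗ₖ (vecMulVec b (star b) + vecMulVec b' (star b'))) * Ψ)ᴴ
      = Ψᴴ * ((1 : Matrix A A ℂ) ⊗ₖ (vecMulVec b (star b) + vecMulVec b' (star b'))) * Ψ := by
    rw [conjTranspose_transpose_eq_transpose_conjTranspose] at hM
    exact transpose_injective hM
  have h1 := transpose_mulVec_eq_zero hM' h
  set ψ := Ψ *ᵥ star v with hψ
  have h2 : star ψ ⬝ᵥ (((1 : Matrix A A ℂ) ⊗ₖ (vecMulVec b (star b) + vecMulVec b' (star b')))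
      *ᵥ ψ) = 0 := by
    have h3 : star (star v) ⬝ᵥ ((Ψᴴ * ((1 : Matrix A A ℂ) ⊗ₖ
        (vecMulVec b (star b) + vecMulVec b' (star b'))) * Ψ) *ᵥ star v) = 0 := by
      rw [h1, dotProduct_zero]
    rw [← mulVec_mulVec, ← mulVec_mulVec, ← hψ, dotProduct_mulVec, ← star_mulVec, ← hψ] at h3
    exact h3
  rw [kronecker_add, add_mulVec, dotProduct_add, quad_fiber, quad_fiber, ← Complex.ofReal_add,
    Complex.ofReal_eq_zero] at h2
  have e1 : ∀ c : B → ℂ, 0 ≤ ∑ x, ‖ip c (fun y => ψ (x, y))‖ ^ 2 := fun c =>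
    Finset.sum_nonneg fun _ _ => by positivity
  have e2 := (add_eq_zero_iff_of_nonneg (e1 b) (e1 b')).mp h2
  have e3 := (Finset.sum_eq_zero_iff_of_nonneg (fun _ _ => by positivity)).mp e2.1 x
    (Finset.mem_univ x)
  have e4 := (Finset.sum_eq_zero_iff_of_nonneg (fun _ _ => by positivity)).mp e2.2 x
    (Finset.mem_univ x)
  exact ⟨norm_eq_zero.mp (pow_eq_zero_iff two_ne_zero |>.mp e3),
    norm_eq_zero.mp (pow_eq_zero_iff two_ne_zero |>.mp e4)⟩

theorem star_ip_mulVec {n : Type} [Fintype n] {M : Matrix n n ℂ} (hM : Mᴴ = M) (u v : n → ℂ) :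
    star (ip u (M *ᵥ v)) = ip v (M *ᵥ u) := by
  rw [ip_star, ip, star_mulVec, hM, ip, dotProduct_mulVec]

end UPB

open UPB in
/-- A state on `ℂ^d ⊗ ℂ^3` without product vectors in its range, but with two product vectors
`a ⊗ b`, `a' ⊗ b'` in its kernel such that `b`, `b'` are linearly independent and the operator
`⟨a'|ρ|a⟩` is not zero, has positive distillable key. -/
theorem kernel_pair_of (Ψ : Matrix (A × Fin 3) E ℂ) (hblock : BlockPosStatement Ψ)
    (hΨ : (Ψ * Ψᴴ).trace = 1) (a a' : A → ℂ) (b b' : Fin 3 → ℂ)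
    (hab : Ψᴴ *ᵥ prodVec a b = 0) (hab' : Ψᴴ *ᵥ prodVec a' b' = 0)
    (hbb : star b ⨯₃ star b' ≠ 0)
    (hces : ∀ (v : E → ℂ) (α : A → ℂ) (β : Fin 3 → ℂ), Ψ *ᵥ v = prodVec α β → Ψ *ᵥ v = 0)
    (hne : ∃ β : Fin 3 → ℂ, ip (prodVec a' β) ((Ψ * Ψᴴ) *ᵥ prodVec a β) ≠ 0) : 0 < KD Ψ := by
  obtain ⟨β, hβ⟩ := hne
  set w := ip (prodVec a' β) ((Ψ * Ψᴴ) *ᵥ prodVec a β) with hw
  have hw' : ip (prodVec a β) ((Ψ * Ψᴴ) *ᵥ prodVec a' β) = star w :=
    (star_ip_mulVec (by rw [conjTranspose_mul, conjTranspose_conjTranspose]) _ _).symm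
  refine kernel_criterion_of Ψ hblock hΨ
    (X := star w • vecMulVec a (star a') + w • vecMulVec a' (star a))
    (H := vecMulVec b (star b) + vecMulVec b' (star b'))
    (Φ := vecMulVec β (star β)) ?_ ?_ (posSemidef_vmv β) ?_ ?_ ?_
  · rw [IsHermitian, conjTranspose_add, conjTranspose_smul, conjTranspose_smul,
      conjTranspose_vecMulVec, conjTranspose_vecMulVec, star_star, star_star, star_star, add_comm]
  · exact (posSemidef_vmv b).add (posSemidef_vmv b')
  · rw [T1.eve_add_left, T1.eve_smul_left, T1.eve_smul_left, T1.eve_add_right, T1.eve_add_right,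
      eve_vmv, eve_vmv, eve_vmv, eve_vmv, hab, hab']
    simp
  · intro v hv
    obtain ⟨n, -, -, -, hn⟩ := exists_normal' hbb
    have h1 : ∀ x, ∃ c : ℂ, (fun y => (Ψ *ᵥ star v) (x, y)) = c • n := fun x =>
      hn _ (ip_fiber_eq_zero Ψ b b' v hv x).1 (ip_fiber_eq_zero Ψ b b' v hv x).2
    choose c hc using h1
    have h2 : Ψ *ᵥ star v = prodVec c n := by
      ext ⟨x, y⟩
      exact congrFun (hc x) y
    have h3 := hces _ _ _ h2
    rw [T1.eve_one_one, mulVec_transpose]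
    have h4 : (Ψᴴ * Ψ) *ᵥ star v = 0 := by rw [← mulVec_mulVec, h3, mulVec_zero]
    have h5 := congrArg star h4
    rw [star_mulVec, star_star, conjTranspose_mul, conjTranspose_conjTranspose, star_zero] at h5
    exact h5
  · rw [T1.eve_add_left, T1.eve_smul_left, T1.eve_smul_left, trace_add, trace_smul, trace_smul,
      eve_vmv_trace, eve_vmv_trace, ← hw, hw', smul_eq_mul, smul_eq_mul, RCLike.star_def,
      Complex.conj_mul', Complex.mul_conj']
    have : (‖w‖ : ℂ) ≠ 0 := by exact_mod_cast (norm_ne_zero_iff.mpr hβ)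
    rw [← two_mul]
    exact mul_ne_zero two_ne_zero (pow_ne_zero 2 this)

namespace UPB

omit [DecidableEq A] [DecidableEq B] in
theorem ip_prodVec (a a' : A → ℂ) (b b' : B → ℂ) :
    ip (prodVec a b) (prodVec a' b') = ip a a' * ip b b' := by
  simp only [ip_def, prodVec, Fintype.sum_prod_type, Finset.sum_mul_sum, star_mul]
  refine Finset.sum_congr rfl fun x _ => Finset.sum_congr rfl fun y _ => ?_
  ring

omit [DecidableEq A] [DecidableEq B] in
theorem kronecker_mulVec_prodVec (M : Matrix A A ℂ) (N : Matrix B B ℂ) (a : A → ℂ) (b : B → ℂ) :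
    (M ⊗ₖ N) *ᵥ prodVec a b = prodVec (M *ᵥ a) (N *ᵥ b) := by
  ext ⟨x, y⟩
  simp only [mulVec, dotProduct, kroneckerMap_apply, prodVec, Fintype.sum_prod_type,
    Finset.sum_mul_sum]
  refine Finset.sum_congr rfl fun x' _ => Finset.sum_congr rfl fun y' _ => ?_
  ring

omit [Fintype A] [DecidableEq A] [Fintype B] [DecidableEq B] in
theorem prodVec_eq_zero {a : A → ℂ} {b : B → ℂ} (h : prodVec a b = 0) : a = 0 ∨ b = 0 := by
  by_contra hcon
  push Not at hcon
  obtain ⟨x, hx⟩ := Function.ne_iff.mp hcon.1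
  obtain ⟨y, hy⟩ := Function.ne_iff.mp hcon.2
  exact mul_ne_zero hx hy (congrFun h (x, y))

theorem sum_block {I : Type} [Fintype I] {a : I → A → ℂ} {b : I → Fin 3 → ℂ}
    (hb : ∀ i, ip (b i) (b i) = 1)
    (horth : ∀ i j, i ≠ j → ip (a i) (a j) * ip (b i) (b j) = 0)
    {i j : I} (hij : ¬ par (b i) (b j)) {n : Fin 3 → ℂ} (hn : ip n n = 1)
    (hin : ip (b i) n = 0) (hjn : ip (b j) n = 0)
    (hx : ∀ x : Fin 3 → ℂ, ip (b i) x = 0 → ip (b j) x = 0 → ∃ c : ℂ, x = c • n) :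
    ∑ k, ip (a j) (a k) * ip n (b k) * (ip (a k) (a i) * ip (b k) n)
      = ip (a j) (Q a (T b i j) *ᵥ a i) := by
  classical
  have h1 : ip (a j) (Q a (T b i j) *ᵥ a i)
      = ∑ k, if k ∈ T b i j then ip (a k) (a i) * ip (a j) (a k) else 0 := by
    rw [Q_mulVec, ip, dotProduct_sum, ← Finset.sum_filter]
    have : (Finset.univ.filter fun k => k ∈ T b i j) = T b i j := by ext k; simp
    rw [this]
    refine Finset.sum_congr rfl fun k _ => ?_
    rw [dotProduct_smul, smul_eq_mul]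
    rfl
  rw [h1]
  refine Finset.sum_congr rfl fun k _ => ?_
  split_ifs with hk
  · rw [mem_T] at hk
    obtain ⟨c, hc⟩ := hx (b k) hk.1 hk.2
    have h2 := ip_mul_ip_of_par (hb k) hn (par_of_smul_unit (hb k) hn hc)
    linear_combination (ip (a j) (a k) * ip (a k) (a i)) * h2
  · rw [mem_T] at hk
    by_cases hki : k = i
    · rw [hki, hin]; ring
    by_cases hkj : k = j
    · rw [hkj, hjn]; ring
    by_cases h3 : ip (b i) (b k) = 0
    · have h4 : ip (b j) (b k) ≠ 0 := fun h => hk ⟨h3, h⟩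
      rw [(mul_eq_zero.mp (horth j k (Ne.symm hkj))).resolve_right h4]; ring
    · have h5 : ip (a k) (a i) = 0 :=
        ip_eq_zero_symm ((mul_eq_zero.mp (horth i k (Ne.symm hki))).resolve_right h3)
      rw [h5]; ring

omit [DecidableEq A] [DecidableEq B] in
theorem ip_conj_mulVec {m : Type} [Fintype m] {n : Type} [Fintype n] (K : Matrix m n ℂ)
    (u : m → ℂ) (v : n → ℂ) : ip u (K *ᵥ v) = ip (Kᴴ *ᵥ u) v := by
  rw [ip, ip, star_mulVec, conjTranspose_conjTranspose, dotProduct_mulVec]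

end UPB

open UPB in
/-- Every state locally equivalent to the normalised complementary projection of an unextendible
product basis of `ℂ^d ⊗ ℂ^3` has positive distillable key. -/
theorem upb_of {I : Type} [Fintype I] (Ψ : Matrix (A × Fin 3) E ℂ) (hblock : BlockPosStatement Ψ)
    (a : I → A → ℂ) (b : I → Fin 3 → ℂ) (hab : IsUPB a b)
    (hcard : Fintype.card I < Fintype.card A * 3)
    (S : Matrix A A ℂ) (T : Matrix (Fin 3) (Fin 3) ℂ) (hS : IsUnit S) (hT : IsUnit T)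
    (hΨ : (Ψ * Ψᴴ).trace = 1) (c : ℂ)
    (hρ : Ψ * Ψᴴ = c • ((S ⊗ₖ T) *
      (1 - ∑ i, vecMulVec (prodVec (a i) (b i)) (star (prodVec (a i) (b i)))) * (S ⊗ₖ T)ᴴ)) :
    0 < KD Ψ := by
  classical
  have ha : ∀ i, ip (a i) (a i) = 1 := hab.unit_left
  have hb : ∀ i, ip (b i) (b i) = 1 := hab.unit_right
  have horth : ∀ i j, i ≠ j → ip (a i) (a j) * ip (b i) (b j) = 0 := by
    intro i j hij
    rw [← ip_prodVec]
    exact hab.orth i j hij
  have hunext : ∀ (α : A → ℂ) (β : Fin 3 → ℂ), (∀ i, ip (a i) α * ip (b i) β = 0) →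
      α = 0 ∨ β = 0 := by
    intro α β h
    apply prodVec_eq_zero
    apply hab.unext
    intro i
    have := h i
    rw [← ip_prodVec] at this
    exact this
  set Pr : Matrix (A × Fin 3) (A × Fin 3) ℂ :=
    ∑ i, vecMulVec (prodVec (a i) (b i)) (star (prodVec (a i) (b i))) with hPr
  have hc : c ≠ 0 := by
    rintro rfl
    rw [zero_smul] at hρ
    rw [hρ, trace_zero] at hΨ
    exact zero_ne_one hΨ
  obtain ⟨S', hS'⟩ := hS.exists_left_inv
  obtain ⟨T', hT'⟩ := hT.exists_left_inv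
  have hS'' : S * S' = 1 := mul_eq_one_comm.mp hS'
  have hT'' : T * T' = 1 := mul_eq_one_comm.mp hT'
  have hcancel : ∀ (α : A → ℂ) (β : Fin 3 → ℂ),
      (S ⊗ₖ T)ᴴ *ᵥ prodVec (S'ᴴ *ᵥ α) (T'ᴴ *ᵥ β) = prodVec α β := by
    intro α β
    rw [conjTranspose_kronecker, kronecker_mulVec_prodVec, mulVec_mulVec, mulVec_mulVec,
      ← conjTranspose_mul, ← conjTranspose_mul, hS', hT', conjTranspose_one, conjTranspose_one,
      one_mulVec, one_mulVec]
  have hPrv : ∀ v : A × Fin 3 → ℂ, Pr *ᵥ v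
      = ∑ k, ip (prodVec (a k) (b k)) v • prodVec (a k) (b k) := by
    intro v
    rw [hPr, sum_mulVec]
    exact Finset.sum_congr rfl fun k _ => vmv_mulVec _ _ _
  have hPrk : ∀ k, (1 - Pr) *ᵥ prodVec (a k) (b k) = 0 := by
    intro k
    rw [sub_mulVec, one_mulVec, hPrv, Finset.sum_eq_single k]
    · rw [ip_prodVec, ha, hb, mul_one, one_smul, sub_self]
    · intro l _ hlk
      have : ip (prodVec (a l) (b l)) (prodVec (a k) (b k)) = 0 := hab.orth l k hlk
      rw [this, zero_smul]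
    · intro h; exact absurd (Finset.mem_univ k) h
  have hker : ∀ k, Ψᴴ *ᵥ prodVec (S'ᴴ *ᵥ a k) (T'ᴴ *ᵥ b k) = 0 := by
    intro k
    rw [← self_mul_conjTranspose_mulVec_eq_zero, hρ, smul_mulVec, ← mulVec_mulVec, hcancel,
      ← mulVec_mulVec, hPrk, mulVec_zero, smul_zero]
  obtain ⟨i, j, hij, hne⟩ := exists_nonzero_block ha hb horth hunext hcard
  obtain ⟨n, hn, hin, hjn, hx⟩ := exists_normal (hb i) (hb j) hij
  refine kernel_pair_of Ψ hblock hΨ (S'ᴴ *ᵥ a i) (S'ᴴ *ᵥ a j) (T'ᴴ *ᵥ b i) (T'ᴴ *ᵥ b j)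
    (hker i) (hker j) ?_ ?_ ⟨T'ᴴ *ᵥ n, ?_⟩
  · have h1 := crossProduct_ne_zero_iff_linearIndependent.mp (cross_ne_zero (hb i) (hb j) hij)
    rw [crossProduct_ne_zero_iff_linearIndependent, star_mulVec, star_mulVec,
      conjTranspose_conjTranspose]
    have h2 := h1.map' (T'.vecMulLinear) (by
      rw [LinearMap.ker_eq_bot]
      intro x y hxy
      have h3 : x ᵥ* T' = y ᵥ* T' := hxy
      have h4 := congrArg (fun z => z ᵥ* T) h3
      simpa only [vecMul_vecMul, hT', vecMul_one] using h4)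
    have h5 : (⇑T'.vecMulLinear ∘ ![star (b i), star (b j)])
        = ![star (b i) ᵥ* T', star (b j) ᵥ* T'] := by
      ext x
      fin_cases x <;> rfl
    rwa [h5] at h2
  · intro v α β h
    have h1 : prodVec (S' *ᵥ α) (T' *ᵥ β) = 0 := by
      apply hab.unext
      intro k
      have h2 : ip (prodVec (a k) (b k)) (prodVec (S' *ᵥ α) (T' *ᵥ β)) = 0 := by
        rw [← kronecker_mulVec_prodVec, ← h, ip_conj_mulVec, conjTranspose_kronecker,
          kronecker_mulVec_prodVec, ip_conj_mulVec, hker]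
        simp [ip]
      exact h2
    have h3 : (S ⊗ₖ T) *ᵥ prodVec (S' *ᵥ α) (T' *ᵥ β) = prodVec α β := by
      rw [kronecker_mulVec_prodVec, mulVec_mulVec, mulVec_mulVec, hS'', hT'', one_mulVec,
        one_mulVec]
    rw [h, ← h3, h1, mulVec_zero]
  · rw [hρ, smul_mulVec, ip_smul_right]
    refine mul_ne_zero hc ?_
    rw [← mulVec_mulVec, ← mulVec_mulVec, hcancel, ip_conj_mulVec, hcancel, sub_mulVec,
      one_mulVec, hPrv]
    have h1 : ip (prodVec (a j) n) (prodVec (a i) n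
        - ∑ k, ip (prodVec (a k) (b k)) (prodVec (a i) n) • prodVec (a k) (b k))
        = ip (a j) (a i) - ∑ k, ip (a j) (a k) * ip n (b k) * (ip (a k) (a i) * ip (b k) n) := by
      have h2 : ip (prodVec (a j) n) (∑ k, ip (prodVec (a k) (b k)) (prodVec (a i) n) •
          prodVec (a k) (b k))
          = ∑ k, ip (a j) (a k) * ip n (b k) * (ip (a k) (a i) * ip (b k) n) := by
        rw [ip, dotProduct_sum]
        refine Finset.sum_congr rfl fun k _ => ?_
        rw [dotProduct_smul, smul_eq_mul, ip_prodVec]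
        have : star (prodVec (a j) n) ⬝ᵥ prodVec (a k) (b k) = ip (a j) (a k) * ip n (b k) :=
          ip_prodVec _ _ _ _
        rw [this, mul_comm]
      rw [← h2, ip, dotProduct_sub]
      congr 1
      have : star (prodVec (a j) n) ⬝ᵥ prodVec (a i) n = ip (a j) (a i) * ip n n :=
        ip_prodVec _ _ _ _
      rw [this, hn, mul_one]
    rw [h1, sum_block hb horth hij hn hin hjn hx, sub_ne_zero]
    exact hne

/-- `BlockPosStatement` holds, by `block_pos`. -/
theorem blockPosStatement (Ψ : Matrix (A × B) E ℂ) (hΨ : (Ψ * Ψᴴ).trace = 1) :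
    BlockPosStatement Ψ := by
  intro Y _ _ EA hEA hEA1 FB hFB hFB1 P hP D hD p V2 Bh hp hV hB hlt
  exact block_pos Ψ hΨ EA hEA hEA1 FB hFB hFB1 P hP D hD p V2 Bh hp hV hB hlt

/-- The kernel criterion. -/
theorem kernel_criterion (Ψ : Matrix (A × B) E ℂ) (hΨ : (Ψ * Ψᴴ).trace = 1)
    {X : Matrix A A ℂ} (hX : X.IsHermitian) {H Φ : Matrix B B ℂ} (hH : H.PosSemidef)
    (hΦ : Φ.PosSemidef) (h1 : eve Ψ X H = 0)
    (h2 : ∀ v : E → ℂ, eve Ψ 1 H *ᵥ v = 0 → eve Ψ 1 1 *ᵥ v = 0)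
    (h3 : (eve Ψ X Φ).trace ≠ 0) : 0 < KD Ψ :=
  kernel_criterion_of Ψ (blockPosStatement Ψ hΨ) hΨ hX hH hΦ h1 h2 h3

end Vale.Agent.P372
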