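import Vale.Agent.P372.MathlibUsed

namespace Vale.Agent.P372

/-- The product vector `a ⊗ b`. -/
def prodVec {A B : Type} (a : A → ℂ) (b : B → ℂ) : A × B → ℂ := fun p => a p.1 * b p.2

end Vale.Agent.P372
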